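import Vale.Agent.P022S.Top.Spec
import Vale.Agent.P022F.Top.Nf

/-!
P022S: the integral model which is scalar modulo the maximal ideal.
-/

set_option linter.all false

open Matrix

noncomputable section

namespace Vale.Agent.P022S.Top

open Vale.Agent.P022 Vale.Agent.P022D.Dk Vale.Agent.P022D
open Vale.Agent.P022D.Top hiding COREn CORE MAIN TH END

theorem cpt : CompactSpace GQ := by
  have h1 : Algebra.IsAlgebraic ℚ Qb := AlgebraicClosure.isAlgebraic ℚ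
  have h2 : IsAlgClosure ℚ Qb := ⟨inferInstance, inferInstance⟩
  have h3 : IsGalois ℚ Qb := IsAlgClosure.isGalois ℚ Qb
  infer_instance

/-- the permutation matrix -/
def sw (E : Type) [Field E] : GL (Fin 2) E :=
  ⟨!![0, 1; 1, 0], !![0, 1; 1, 0], by simp [Matrix.one_fin_two], by simp [Matrix.one_fin_two]⟩

theorem sw_ent {E : Type} [Field E] (s : GQ →* GL (Fin 2) E) (g : GQ) :
    (cj (sw E) s g : Matrix (Fin 2) (Fin 2) E) =
      !![(s g : Matrix (Fin 2) (Fin 2) E) 1 1, (s g : Matrix (Fin 2) (Fin 2) E) 1 0;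
        (s g : Matrix (Fin 2) (Fin 2) E) 0 1, (s g : Matrix (Fin 2) (Fin 2) E) 0 0] := by
  rw [cj_apply, Units.val_mul, Units.val_mul]
  change (!![0, 1; 1, 0] : Matrix (Fin 2) (Fin 2) E) * (s g : Matrix (Fin 2) (Fin 2) E) *
    (!![0, 1; 1, 0] : Matrix (Fin 2) (Fin 2) E) = _
  ext i j
  fin_cases i <;> fin_cases j <;>
    simp [Matrix.mul_apply, Fin.sum_univ_two, Matrix.vecMul, dotProduct]

/-- a lower unipotent matrix -/
def lu {E : Type} [Field E] (u : E) : GL (Fin 2) E :=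
  ⟨!![1, 0; u, 1], !![1, 0; -u, 1], by simp [Matrix.one_fin_two], by simp [Matrix.one_fin_two]⟩

theorem lu_ent {E : Type} [Field E] (u : E) (s : GQ →* GL (Fin 2) E) (g : GQ) :
    (cj (lu u) s g : Matrix (Fin 2) (Fin 2) E) =
      !![(s g : Matrix (Fin 2) (Fin 2) E) 0 0 + (s g : Matrix (Fin 2) (Fin 2) E) 0 1 * u,
          (s g : Matrix (Fin 2) (Fin 2) E) 0 1;
        (s g : Matrix (Fin 2) (Fin 2) E) 1 0 + ((s g : Matrix (Fin 2) (Fin 2) E) 1 1 -
          (s g : Matrix (Fin 2) (Fin 2) E) 0 0) * u - (s g : Matrix (Fin 2) (Fin 2) E) 0 1 * u ^ 2,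
          (s g : Matrix (Fin 2) (Fin 2) E) 1 1 - (s g : Matrix (Fin 2) (Fin 2) E) 0 1 * u] := by
  rw [cj_apply, Units.val_mul, Units.val_mul]
  change (!![1, 0; -u, 1] : Matrix (Fin 2) (Fin 2) E) * (s g : Matrix (Fin 2) (Fin 2) E) *
    (!![1, 0; u, 1] : Matrix (Fin 2) (Fin 2) E) = _
  ext i j
  fin_cases i <;> fin_cases j <;>
    simp [Matrix.mul_apply, Fin.sum_univ_two, Matrix.vecMul, dotProduct] <;> ring

theorem ir_of {E : Type} [Field E] [CharZero E] {r : GQ →* GL (Fin 2) E} (ho : OddRep r)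
    (hi : St.AbsIrr r) : Ir r := by
  obtain ⟨c, hc⟩ := H443.exists_isConj
  have e : bc E r = r := MonoidHom.ext fun g => Units.ext (by
    rw [H20.bc_coe]
    rfl)
  have h2 : (r c : Matrix (Fin 2) (Fin 2) E) * r c = 1 := by
    rw [← Units.val_mul, ← map_mul, H20.conj_sq hc, map_one, Units.val_one]
  have hd := ho c hc
  have ht : (r c : Matrix (Fin 2) (Fin 2) E).trace = 1 + -1 := by
    have a := congrFun (congrFun h2 0) 0
    have b := congrFun (congrFun h2 1) 1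
    rw [Matrix.mul_apply, Fin.sum_univ_two, Matrix.one_apply_eq] at a b
    rw [Matrix.det_fin_two] at hd
    rw [Matrix.trace_fin_two, add_neg_cancel]
    exact pow_eq_zero_iff two_ne_zero |>.1 (by linear_combination a + b + 2 * hd)
  obtain ⟨P, hP⟩ := diag (r c) 1 (-1) (by norm_num) ht (by rw [hd]; ring)
  have hP' : (cj P r c : Matrix (Fin 2) (Fin 2) E) = !![1, 0; 0, -1] := hP
  obtain ⟨g1, h1⟩ := P022F.Nf.ne_of_irr hi P
  obtain ⟨g2, h3⟩ := P022F.Nf.ne_of_irr hi (P * sw E)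
  rw [e] at h1 h3
  rw [← cj_cj, sw_ent] at h3
  have h4 : (cj P r g2 : Matrix (Fin 2) (Fin 2) E) 1 0 ≠ 0 := h3
  have key : Ir (cj P r) := by
    obtain ⟨g, hg⟩ : ∃ g, (cj P r g : Matrix (Fin 2) (Fin 2) E) 0 1 *
        (cj P r g : Matrix (Fin 2) (Fin 2) E) 1 0 ≠ 0 := by
      by_contra hn
      push Not at hn
      have a := (mul_eq_zero.1 (hn g1)).resolve_left h1
      have b := (mul_eq_zero.1 (hn g2)).resolve_right h4
      have d1 := (cj P r g1).det_ne_zero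
      have d2 := (cj P r g2).det_ne_zero
      rw [Matrix.det_fin_two, a, mul_zero, sub_zero] at d1
      rw [Matrix.det_fin_two, b, zero_mul, sub_zero] at d2
      have k := hn (g1 * g2)
      rw [map_mul, Units.val_mul, Matrix.mul_apply, Matrix.mul_apply, Fin.sum_univ_two,
        Fin.sum_univ_two, a, b, mul_zero, zero_mul, zero_add, zero_add] at k
      exact mul_ne_zero (mul_ne_zero h1 (right_ne_zero_of_mul d2))
        (mul_ne_zero (right_ne_zero_of_mul d1) h4) k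
    refine ⟨c, g, fun k => hg ?_⟩
    rw [hP'] at k
    simp [Matrix.det_fin_two, Matrix.mul_apply, Fin.sum_univ_two, Matrix.vecMul, dotProduct,
      Matrix.vecHead, Matrix.vecTail] at k
    rcases k with k | k
    · exact mul_eq_zero_of_left k _
    · exact mul_eq_zero_of_right _ (by linear_combination -k / 2)
  have e2 : cj P⁻¹ (cj P r) = r := MonoidHom.ext fun g => by
    rw [cj_apply, cj_apply]
    group
  exact e2 ▸ key.cj P⁻¹

variable {E : Type} [NontriviallyNormedField E]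

/-- a stable lattice -/
theorem latt {r : GQ →* GL (Fin 2) E} (hc : Continuous r) (hi : Ir r) :
    ∃ P : GL (Fin 2) E, ∀ g i j, ‖(cj P r g : Matrix (Fin 2) (Fin 2) E) i j‖ ≤ 1 := by
  haveI := cpt
  have cm : ∀ i j, Continuous fun g => (r g : Matrix (Fin 2) (Fin 2) E) i j := fun i j =>
    (Units.continuous_val.comp hc).matrix_elem i j
  let D : GQ × GQ → E := fun p => (r p.1 : Matrix (Fin 2) (Fin 2) E) 0 1 *
    (r p.2 : Matrix (Fin 2) (Fin 2) E) 1 1 - (r p.2 : Matrix (Fin 2) (Fin 2) E) 0 1 *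
    (r p.1 : Matrix (Fin 2) (Fin 2) E) 1 1
  have hD : Continuous fun p => ‖D p‖ := ((((cm 0 1).comp continuous_fst).mul
    ((cm 1 1).comp continuous_snd)).sub (((cm 0 1).comp continuous_snd).mul
      ((cm 1 1).comp continuous_fst))).norm
  obtain ⟨p, -, hp⟩ := isCompact_univ.exists_isMaxOn Set.univ_nonempty hD.continuousOn
  have hm : ∀ q, ‖D q‖ ≤ ‖D p‖ := fun q => hp (Set.mem_univ q)
  have h0 : D p ≠ 0 := fun e => by
    obtain ⟨g, hg⟩ := hi.up
    have h1 := hm (g, 1)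
    rw [e, norm_zero, norm_le_zero_iff] at h1
    exact hg (by simpa [D] using h1)
  have q1 : ∀ q, ‖D q / D p‖ ≤ 1 := fun q => by
    rw [norm_div]
    exact div_le_one_of_le₀ (hm q) (norm_nonneg _)
  let A : Matrix (Fin 2) (Fin 2) E :=
    !![(r p.1 : Matrix (Fin 2) (Fin 2) E) 0 1, (r p.2 : Matrix (Fin 2) (Fin 2) E) 0 1;
      (r p.1 : Matrix (Fin 2) (Fin 2) E) 1 1, (r p.2 : Matrix (Fin 2) (Fin 2) E) 1 1]
  have hA : A.det ≠ 0 := by rw [det_fin_two_of]; exact h0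
  refine ⟨Matrix.GeneralLinearGroup.mkOfDetNeZero A hA, fun g => ?_⟩
  have e : (cj (Matrix.GeneralLinearGroup.mkOfDetNeZero A hA) r g : Matrix (Fin 2) (Fin 2) E) =
      !![D (g * p.1, p.2) / D p, D (g * p.2, p.2) / D p;
        D (p.1, g * p.1) / D p, D (p.1, g * p.2) / D p] := by
    rw [cj_apply, mul_assoc, Units.val_mul, Units.inv_mul_eq_iff_eq_mul, Units.val_mul]
    change (r g : Matrix (Fin 2) (Fin 2) E) * A = A * _
    ext i j
    fin_cases i <;> fin_cases j <;>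
      simp only [A, Matrix.mul_apply, Fin.sum_univ_two, Fin.zero_eta, Fin.mk_one, Fin.isValue,
        of_apply, cons_val', cons_val_zero, cons_val_one, cons_val_fin_one] <;>
      field_simp <;>
      simp only [D, map_mul, Units.val_mul, Matrix.mul_apply, Fin.sum_univ_two] <;> ring
  intro i j
  rw [e]
  fin_cases i <;> fin_cases j <;> exact q1 _

variable [NormedAlgebra ℚ_[2] E] [IsUltrametricDist E] [FiniteDimensional ℚ_[2] E]

theorem dg_of {s : GQ →* GL (Fin 2) E} (hi : ∀ g i j, ‖(s g : Matrix (Fin 2) (Fin 2) E) i j‖ ≤ 1)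
    (ht : ∀ g, ‖(s g : Matrix (Fin 2) (Fin 2) E).trace‖ < 1) (g : GQ) :
    ‖(s g : Matrix (Fin 2) (Fin 2) E) 0 0 - (s g : Matrix (Fin 2) (Fin 2) E) 1 1‖ < 1 := by
  rw [show ∀ a d : E, a - d = a + d - d * 2 from fun a d => by ring, ← Matrix.trace_fin_two]
  exact nlt (ht g) (mlt (hi g 1 1) norm_two_lt)

/-- the balanced lattice, from a triangular one -/
theorem sca_lo {s : GQ →* GL (Fin 2) E} (hc : Continuous s) (hI : Ir s)
    (hi : ∀ g i j, ‖(s g : Matrix (Fin 2) (Fin 2) E) i j‖ ≤ 1)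
    (ht : ∀ g, ‖(s g : Matrix (Fin 2) (Fin 2) E).trace‖ < 1)
    (lo : ∀ g, ‖(s g : Matrix (Fin 2) (Fin 2) E) 1 0‖ < 1) :
    ∃ (E' : Type) (_ : NontriviallyNormedField E') (_ : NormedAlgebra ℚ_[2] E')
      (_ : IsUltrametricDist E') (_ : FiniteDimensional ℚ_[2] E') (_ : NormedAlgebra E E')
      (_ : IsScalarTower ℚ_[2] E E') (P : GL (Fin 2) E'), Sca (cj P (bc E' s)) := by
  haveI := cpt
  have hb : Continuous fun g => ‖(s g : Matrix (Fin 2) (Fin 2) E) 1 0‖ :=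
    ((Units.continuous_val.comp hc).matrix_elem 1 0).norm
  obtain ⟨g₂, -, hg₂⟩ := isCompact_univ.exists_isMaxOn Set.univ_nonempty hb.continuousOn
  have hm : ∀ g, ‖(s g : Matrix (Fin 2) (Fin 2) E) 1 0‖ ≤
      ‖(s g₂ : Matrix (Fin 2) (Fin 2) E) 1 0‖ := fun g => hg₂ (Set.mem_univ g)
  have hb0 : (s g₂ : Matrix (Fin 2) (Fin 2) E) 1 0 ≠ 0 := fun e => by
    obtain ⟨g, hg⟩ := hI.lo
    have h3 := hm g
    rw [e, norm_zero, norm_le_zero_iff] at h3
    exact hg h3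
  obtain ⟨E', i1, i2, i3, i4, i5, i6, hp⟩ := ext_split E
    (Polynomial.X ^ 2 - Polynomial.C ((s g₂ : Matrix (Fin 2) (Fin 2) E) 1 0))
  refine ⟨E', i1, i2, i3, i4, i5, i6, ?_⟩
  rw [Polynomial.map_sub, Polynomial.map_pow, Polynomial.map_X, Polynomial.map_C] at hp
  obtain ⟨σ, hσ⟩ := hp.exists_eval_eq_zero (by
    rw [Polynomial.degree_X_pow_sub_C two_pos]; simp)
  have hσ2 : σ ^ 2 = algebraMap E E' ((s g₂ : Matrix (Fin 2) (Fin 2) E) 1 0) := by
    simpa [sub_eq_zero] using hσ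
  have hn2 : ‖σ‖ ^ 2 = ‖(s g₂ : Matrix (Fin 2) (Fin 2) E) 1 0‖ := by
    rw [← norm_pow, hσ2, norm_algebraMap']
  have hσ0 : σ ≠ 0 := fun e => by
    rw [e, norm_zero, zero_pow two_ne_zero, eq_comm, norm_eq_zero] at hn2
    exact hb0 hn2
  have hσ1 : ‖σ‖ < 1 := lt_of_pow_lt_pow_left₀ 2 zero_le_one (by
    rw [hn2, one_pow]; exact lo g₂)
  obtain ⟨D, hD⟩ := P022E.Dk.scale4 σ⁻¹ (inv_ne_zero hσ0)
  refine ⟨D, ?_⟩
  have hD' : ∀ g, (cj D (bc E' s) g : Matrix (Fin 2) (Fin 2) E') = _ := fun g => hD (bc E' s g)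
  have e00 : ∀ g, (cj D (bc E' s) g : Matrix (Fin 2) (Fin 2) E') 0 0 =
      algebraMap E E' ((s g : Matrix (Fin 2) (Fin 2) E) 0 0) := fun g => by rw [hD']; rfl
  have e11 : ∀ g, (cj D (bc E' s) g : Matrix (Fin 2) (Fin 2) E') 1 1 =
      algebraMap E E' ((s g : Matrix (Fin 2) (Fin 2) E) 1 1) := fun g => by rw [hD']; rfl
  have e01 : ∀ g, (cj D (bc E' s) g : Matrix (Fin 2) (Fin 2) E') 0 1 =
      σ * algebraMap E E' ((s g : Matrix (Fin 2) (Fin 2) E) 0 1) := fun g => by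
    rw [hD', inv_inv]; rfl
  have e10 : ∀ g, (cj D (bc E' s) g : Matrix (Fin 2) (Fin 2) E') 1 0 =
      σ⁻¹ * algebraMap E E' ((s g : Matrix (Fin 2) (Fin 2) E) 1 0) := fun g => by rw [hD']; rfl
  have n01 : ∀ g, ‖(cj D (bc E' s) g : Matrix (Fin 2) (Fin 2) E') 0 1‖ < 1 := fun g => by
    rw [e01, norm_mul, norm_algebraMap']
    exact (mul_le_of_le_one_right (norm_nonneg _) (hi g 0 1)).trans_lt hσ1
  have n10 : ∀ g, ‖(cj D (bc E' s) g : Matrix (Fin 2) (Fin 2) E') 1 0‖ < 1 := fun g => by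
    rw [e10, norm_mul, norm_algebraMap', norm_inv, inv_mul_lt_iff₀ (norm_pos_iff.2 hσ0), mul_one]
    refine (hm g).trans_lt ?_
    rw [← hn2, sq]
    exact mul_lt_of_lt_one_right (norm_pos_iff.2 hσ0) hσ1
  refine ⟨fun g i j => ?_, n01, n10, fun g => ?_, (hI.bc E').cj D⟩
  · fin_cases i <;> fin_cases j
    · exact (congrArg norm (e00 g)).trans_le ((norm_algebraMap' _ _).trans_le (hi g 0 0))
    · exact (n01 g).le
    · exact (n10 g).le
    · exact (congrArg norm (e11 g)).trans_le ((norm_algebraMap' _ _).trans_le (hi g 1 1))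
  · rw [e00, e11, ← map_sub, norm_algebraMap']
    exact dg_of hi ht g

/-- the triangular lattice -/
theorem tri {s : GQ →* GL (Fin 2) E} (hi : ∀ g i j, ‖(s g : Matrix (Fin 2) (Fin 2) E) i j‖ ≤ 1)
    (ht : ∀ g, ‖(s g : Matrix (Fin 2) (Fin 2) E).trace‖ < 1) :
    ∃ (E' : Type) (_ : NontriviallyNormedField E') (_ : NormedAlgebra ℚ_[2] E')
      (_ : IsUltrametricDist E') (_ : FiniteDimensional ℚ_[2] E') (_ : NormedAlgebra E E')
      (_ : IsScalarTower ℚ_[2] E E') (P : GL (Fin 2) E'),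
      (∀ g i j, ‖(cj P (bc E' s) g : Matrix (Fin 2) (Fin 2) E') i j‖ ≤ 1) ∧
      ∀ g, ‖(cj P (bc E' s) g : Matrix (Fin 2) (Fin 2) E') 1 0‖ < 1 := by
  by_cases h : ∀ g, ‖(s g : Matrix (Fin 2) (Fin 2) E) 0 1‖ < 1
  · obtain ⟨E', i1, i2, i3, i4, i5, i6, -⟩ := ext_split E 1
    refine ⟨E', i1, i2, i3, i4, i5, i6, sw E', fun g i j => ?_, fun g => ?_⟩
    · rw [sw_ent]
      fin_cases i <;> fin_cases j <;> exact (norm_algebraMap' _ _).trans_le (hi g _ _)
    · rw [sw_ent]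
      exact (norm_algebraMap' _ _).trans_lt (h g)
  push Not at h
  obtain ⟨g₁, h1⟩ := h
  have hb : ‖(s g₁ : Matrix (Fin 2) (Fin 2) E) 0 1‖ = 1 := le_antisymm (hi _ _ _) h1
  have hb0 : (s g₁ : Matrix (Fin 2) (Fin 2) E) 0 1 ≠ 0 := fun e => by simp [e] at hb
  obtain ⟨x, hx⟩ : ∃ x, x = (s g₁ : Matrix (Fin 2) (Fin 2) E) 1 0 /
    (s g₁ : Matrix (Fin 2) (Fin 2) E) 0 1 := ⟨_, rfl⟩
  have x1 : ‖x‖ ≤ 1 := by
    rw [hx, norm_div, hb, div_one]
    exact hi _ _ _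
  have key : ∀ g, ‖(s g : Matrix (Fin 2) (Fin 2) E) 1 0 -
      (s g : Matrix (Fin 2) (Fin 2) E) 0 1 * x‖ < 1 := fun g => by
    have e : (s g₁ : Matrix (Fin 2) (Fin 2) E) 0 1 * ((s g : Matrix (Fin 2) (Fin 2) E) 1 0 -
        (s g : Matrix (Fin 2) (Fin 2) E) 0 1 * x) =
        (s (g₁ * g) : Matrix (Fin 2) (Fin 2) E).trace -
        (s g₁ : Matrix (Fin 2) (Fin 2) E) 1 1 * (s g : Matrix (Fin 2) (Fin 2) E).trace -
        (s g : Matrix (Fin 2) (Fin 2) E) 0 0 * ((s g₁ : Matrix (Fin 2) (Fin 2) E) 0 0 -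
          (s g₁ : Matrix (Fin 2) (Fin 2) E) 1 1) -
        (s g : Matrix (Fin 2) (Fin 2) E) 0 1 * (s g₁ : Matrix (Fin 2) (Fin 2) E) 1 0 * 2 := by
      rw [map_mul, Units.val_mul, Matrix.trace_fin_two, Matrix.trace_fin_two, Matrix.mul_apply,
        Matrix.mul_apply, Fin.sum_univ_two, Fin.sum_univ_two, hx]
      field_simp
      ring
    have k := congrArg norm e
    rw [norm_mul, hb, one_mul] at k
    rw [k]
    exact nlt (nlt (nlt (ht _) (mlt (hi _ _ _) (ht _))) (mlt (hi _ _ _) (dg_of hi ht _)))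
      (mlt (mle (hi _ _ _) (hi _ _ _)) norm_two_lt)
  obtain ⟨E', i1, i2, i3, i4, i5, i6, hp⟩ := ext_split E (Polynomial.X ^ 2 - Polynomial.C x)
  rw [Polynomial.map_sub, Polynomial.map_pow, Polynomial.map_X, Polynomial.map_C] at hp
  obtain ⟨u, hu⟩ := hp.exists_eval_eq_zero (by
    rw [Polynomial.degree_X_pow_sub_C two_pos]; simp)
  have u2 : u ^ 2 = algebraMap E E' x := by simpa [sub_eq_zero] using hu
  have u1 : ‖u‖ ≤ 1 := le_of_pow_le_pow_left₀ two_ne_zero zero_le_one (by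
    rw [← norm_pow, u2, norm_algebraMap', one_pow]; exact x1)
  have b1 : ∀ g i j, ‖(bc E' s g : Matrix (Fin 2) (Fin 2) E') i j‖ ≤ 1 := fun g i j =>
    (norm_algebraMap' _ _).trans_le (hi g i j)
  have lo : ∀ g, ‖(cj (lu u) (bc E' s) g : Matrix (Fin 2) (Fin 2) E') 1 0‖ < 1 := fun g => by
    have e : (cj (lu u) (bc E' s) g : Matrix (Fin 2) (Fin 2) E') 1 0 =
        algebraMap E E' ((s g : Matrix (Fin 2) (Fin 2) E) 1 0 -
          (s g : Matrix (Fin 2) (Fin 2) E) 0 1 * x) - u * algebraMap E E'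
          ((s g : Matrix (Fin 2) (Fin 2) E) 0 0 - (s g : Matrix (Fin 2) (Fin 2) E) 1 1) := by
      rw [lu_ent, u2]
      simp only [H20.bc_coe, map_apply, map_sub, map_mul, of_apply, cons_val', cons_val_zero,
        cons_val_one, cons_val_fin_one]
      ring
    rw [e]
    exact nlt ((norm_algebraMap' _ _).trans_lt (key g))
      (mlt u1 ((norm_algebraMap' _ _).trans_lt (dg_of hi ht g)))
  refine ⟨E', i1, i2, i3, i4, i5, i6, lu u, fun g i j => ?_, lo⟩
  fin_cases i <;> fin_cases j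
  · rw [lu_ent]
    exact (IsUltrametricDist.norm_add_le_max _ _).trans (max_le (b1 g 0 0) (mle (b1 g 0 1) u1))
  · rw [lu_ent]
    exact b1 g 0 1
  · exact (lo g).le
  · rw [lu_ent]
    exact nle (b1 g 1 1) (mle (b1 g 0 1) u1)

/-- **the reduction to the scalar model** -/
theorem finalS (hM : MAIN) (E : Type) [NontriviallyNormedField E] [NormedAlgebra ℚ_[2] E]
    [FiniteDimensional ℚ_[2] E] (r : GQ →* GL (Fin 2) E) (hc : Continuous r)
    (ho : St.OddRep r) (hi : St.AbsIrr r) (hS : {p : ℕ | p.Prime ∧ ¬ St.UnrAt r p}.Finite)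
    (k : Type) [Field k] [CharP k 2] (ρ : GQ →* GL (Fin 2) k) (hr : St.IsRes r ρ)
    (h1 : ∀ g, (ρ g : Matrix (Fin 2) (Fin 2) k).trace = 0) : St.Q1Concl r := by
  refine St.q1Concl r ?_
  have ho' : OddRep r := ho
  have hS' : {p : ℕ | p.Prime ∧ ¬ UnrAt r p}.Finite := hS
  haveI : IsUltrametricDist E := IsUltrametricDist.of_normedAlgebra ℚ_[2]
  haveI : CharZero E := charZero_of_injective_algebraMap (algebraMap ℚ_[2] E).injective
  obtain ⟨O, π, hO, ht⟩ := hr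
  have hI := ir_of ho' hi
  have t0 : ∀ g, ‖(r g : Matrix (Fin 2) (Fin 2) E).trace‖ < 1 := fun g => by
    obtain ⟨t, d, a, -, b, -⟩ := ht g
    rw [← a]
    exact P022E.Br.small_of O hO π t (b.trans (h1 g))
  obtain ⟨P, hP⟩ := latt hc hI
  obtain ⟨E', i1, i2, i3, i4, i5, i6, Q, hQ, lo⟩ := tri hP fun g => by rw [cj_trace]; exact t0 g
  have c1 := cj_cont Q (bc_cont E' (cj_cont P hc))
  obtain ⟨E'', j1, j2, j3, j4, j5, j6, R, hR⟩ := sca_lo c1 (((hI.cj P).bc E').cj Q) hQ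
    (fun g => by rw [cj_trace, H20.bc_trace, norm_algebraMap', cj_trace]; exact t0 g) lo
  have e : cj P r = cj P (bc E r) := congrArg _ (MonoidHom.ext fun g => Units.ext (by
    rw [H20.bc_coe]
    rfl))
  refine q1_desc r P (e ▸ q1_desc _ Q (q1_desc _ R (hM E'' _ (cj_cont R (bc_cont E'' c1))
    ((cj_odd _ _).2 (H20.bc_odd.2 ((cj_odd _ _).2 (H20.bc_odd.2 ((cj_odd _ _).2 ho'))))) ?_ hR)))
  simp only [cj_unrAt, H20.bc_unrAt]
  exact hS'

end Vale.Agent.P022S.Top
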