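import Vale.Agent.P022S.Top.Spec
import Vale.Agent.P022F.Top.Th

/-!
P022S: the residual level is one.
-/

set_option linter.all false

open Matrix NumberField IsLocalRing

noncomputable section

namespace Vale.Agent.P022S.Top

open Vale.Agent.P022 Vale.Agent.P022.H567.Tw Vale.Agent.P022D Vale.Agent.P022D.Dk
open Vale.Agent.P022D.Top hiding COREn CORE MAIN TH END

variable {E : Type} [NontriviallyNormedField E] [NormedAlgebra ℚ_[2] E] [IsUltrametricDist E]
  [FiniteDimensional ℚ_[2] E] {r : GQ →* GL (Fin 2) E}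

theorem Sca.tr (h : Sca r) (g : GQ) : ‖(r g : Matrix (Fin 2) (Fin 2) E).trace‖ < 1 := by
  rw [Matrix.trace_fin_two, show ∀ a d : E, a + d = a - d - d * (-2) from fun a d => by ring]
  exact nlt (h.dg g) (mlt (h.int g 1 1) (by rw [norm_neg]; exact norm_two_lt))

theorem lev1 (h : Sca r) (hD : DetOne r) : Lev r (1 * 1) := by
  refine ⟨odd_one, ?_, fun l hl hd => absurd (Nat.dvd_one.1 hd) hl.ne_one, fun l hl _ hd =>
    hl.ne_one (Nat.dvd_one.1 ((dvd_pow_self l two_ne_zero).trans hd))⟩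
  obtain ⟨co⟩ := V.emb E (Ob E) fun x => mem_Ob
  have one : ∀ l : ℕ, (1 : DirichletCharacter (Ob E) 1) (l : ZMod 1) = 1 := fun l => by
    rw [Subsingleton.elim (l : ZMod 1) 1, map_one]
  let b : Gen (1 * 1) → Ob E := Sum.elim (fun _ => 2) fun _ => 1
  obtain ⟨k, hk⟩ := P022F.Eis.eis_res V.Co.j V.Co.inj 1 1 (1 : DirichletCharacter (Ob E) 1) 1
    (2 : Ob E) dvd_rfl b (fun l => ⟨0, by rw [one]; change (2 : Ob E) - (1 + 1) = _; ring⟩)
    fun l => ⟨0, by rw [one]; change (1 : Ob E) - (1 * 1) = _; ring⟩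
  refine ⟨k, fun φ hφ X hX => ?_⟩
  let r0 := intg r h.int
  let π := residue (Ob E)
  have edt : ∀ g, ((r0 g).det : E) = (r g : Matrix (Fin 2) (Fin 2) E).det := fun g => by
    rw [Matrix.det_fin_two, Matrix.det_fin_two]; rfl
  have etr : ∀ g, ((r0 g).trace : E) = (r g : Matrix (Fin 2) (Fin 2) E).trace := fun g => by
    rw [Matrix.trace_fin_two, Matrix.trace_fin_two]; rfl
  have two : π 2 = 0 := res_Ob.2 norm_two_lt
  let c : Gen (1 * 1) → Ob E := Sum.elim (fun l => (r0 (φ l)).trace) fun l => (r0 (φ l)).det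
  have k4 : π (FreeAlgebra.lift ℤ c X) = 0 := by
    obtain ⟨y, hy⟩ := hk X hX
    have k2 : π (FreeAlgebra.lift ℤ b X) = 0 := by rw [hy, map_mul, two, zero_mul]
    rw [← k2, P022E.Br.lift_map, P022E.Br.lift_map]
    congr 2
    funext y
    rcases y with l | l
    · have h1 : π (r0 (φ l)).trace = 0 := res_Ob.2 (by rw [etr]; exact h.tr _)
      exact h1.trans two.symm
    · have h1 : π ((r0 (φ l)).det - 1) = 0 := res_Ob.2 (by
        rw [AddSubgroupClass.coe_sub, edt]; exact hD _)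
      rw [map_sub, sub_eq_zero] at h1
      exact h1
  refine lt_of_eq_of_lt (congrArg norm ?_) (res_Ob.1 k4)
  refine Eq.trans ?_ (P022E.Br.lift_map (Ob E).subtype c X).symm
  congr 2
  funext y
  rcases y with l | l
  · exact (etr _).symm
  · exact (edt _).symm

/-- **TH** -/
theorem thS : TH := fun E _ _ _ _ r _ _ h hd => ⟨1 * 1, inferInstance, lev1 h hd⟩

end Vale.Agent.P022S.Top
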