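import Vale.Agent.P022S.Top.End
import Vale.Agent.P022S.Top.Th
import Vale.Agent.P022S.Top.Model

/-!
P022S: the theorem from its form in fixed weight.
-/

set_option linter.all false

open Matrix

namespace Vale.Agent.P022S.Top

open Vale.Agent.P022 Vale.Agent.P022D

theorem finS (hC : CORE) (E : Type) [NontriviallyNormedField E] [NormedAlgebra ℚ_[2] E]
    [FiniteDimensional ℚ_[2] E] (r : GQ →* GL (Fin 2) E) (hc : Continuous r)
    (ho : St.OddRep r) (hi : St.AbsIrr r) (hS : {p : ℕ | p.Prime ∧ ¬ St.UnrAt r p}.Finite)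
    (k : Type) [Field k] [CharP k 2] (ρ : GQ →* GL (Fin 2) k) (hr : St.IsRes r ρ)
    (h1 : ∀ g, (ρ g : Matrix (Fin 2) (Fin 2) k).trace = 0) : St.Q1Concl r :=
  finalS (endS thS hC) E r hc ho hi hS k ρ hr h1

end Vale.Agent.P022S.Top
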