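import Vale.Agent.P022S.Top.Core
import Vale.Agent.P022S.Rows2
import Vale.Agent.P022S.Ps.Main
import Vale.Agent.P022S.Wx.Asm
import Vale.Agent.P022S.Wx.Outx
import Vale.Agent.P022S.Wx.Yx
import Vale.Agent.P022S.Wx.Gmx
import Vale.Agent.P022S.Wx.Combx
import Vale.Agent.P022S.Wx.FamH40
import Vale.Agent.P022S.Wx.DvxH51
import Vale.Agent.P022S.Wx.Cyx

/-!
P022S: the theorem for the fixed data from the Galois side.
-/

set_option linter.all false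

open Matrix NumberField IsLocalRing

noncomputable section

namespace Vale.Agent.P022S.H86

open Vale.Agent.P022
open Vale.Agent.P022D.Top (Ob LimR)
open Vale.Agent.P022D.V (Co)
open Vale.Agent.P022E.Fm (Su)
open Vale.Agent.P022S.Top (Fx gS)

theorem rx {O F : Type} [CommRing O] [IsDomain O] [IsDiscreteValuationRing O]
    [P022D.Core.Coef O] [Co O] [Field F] [Finite F] [CharP F 2] {U : Su O F} {X : Finset ℕ}
    [∀ l : U.L.C, Fact l.1.Prime] {Cc : ∀ l : U.L.C, P022D.Rep.Ch (ZMod l.1) F}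
    (hX : Wx.Ux U X) (hc : U.IsCh Cc) : Wx.Rx U X Cc :=
  ⟨Wx.dvxC hX, Wx.yxC hX hc, Wx.kxC hX, Wx.gmxC hX, Wx.cyxC hX,
    Wx.H40.dsxC hX (P022E.Fm.gopCGs hX.ok) (P022E.Fm.diaCGs hX.ok) (P022E.Fm.clsCGs hX.ok),
    Wx.combxC U X Cc⟩

/-- the theorem for the fixed data -/
theorem mid (h : L2X) (E : Type) [NontriviallyNormedField E] [IsUltrametricDist E]
    [NormedAlgebra ℚ_[2] E] [FiniteDimensional ℚ_[2] E] [Co (Ob E)] (r : GQ →* GL (Fin 2) E)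
    (U : Su (Ob E) (ResidueField (Ob E))) (X : Finset ℕ) (as N : ℕ) [NeZero (N ^ 2)]
    (f : Fx U X as) (om : ∀ x y, x ≡ y [MOD ∏ l ∈ U.L.C \ X, l] → U.om x = U.om y)
    (htr : ∀ g, ((U.L.r g).trace : E) = (r g : Matrix (Fin 2) (Fin 2) E).trace)
    (hdt : ∀ g, ((U.L.r g).det : E) = (r g : Matrix (Fin 2) (Fin 2) E).det)
    (hN : N = ∏ l ∈ U.L.C \ X, l) : LimR (N ^ 2) r := by
  have hU := f.ok
  haveI : ∀ l : U.L.C, Fact l.1.Prime := fun l =>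
    ⟨(hU.ok.pr l (Finset.mem_union_right _ l.2)).1⟩
  haveI : Finite (ResidueField (Ob E)) := P022D.Core.Coef.fin
  have pX : ∀ a ∈ X, a.Prime := fun a ha => (hU.ok.pr a (Finset.mem_union_right _ (f.sub ha))).1
  have hX : Wx.Ux U X := ⟨hU, f.sub, fun a ha s ⟨P, h1, h2, h3⟩ =>
    f.unr a (pX a ha) (Or.inr ha) P h1 h2 s h3, om⟩
  have h0 : U.S.l0 ∉ X := fun k => (pX _ k).ne_zero f.l0
  obtain ⟨Cc, P0, hc, hd⟩ := Ps.formsS hU f.im
  have b := f.big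
  exact Wx.outxC E r U X N hX htr hdt hN P0 (h _ _ U.ϖ (gS U.S) U.L X as f.pi
    ⟨f.okG, fun _ => rfl, hU.ok.W0, f.irr, f.unr, f.sub, by omega, f.one, f.mem, f.mv1, f.mv2⟩
    U.S _ _ _ _ _ _ _ rfl hd (P022G.Top.dS U.S X h0) _ _ _ _ _ _ _ rfl
    (Wx.hdX hX (Ps.rw0 hU hc) (Ps.big0 hU hc) (rx hX hc) P0 rfl) fun J hJ => Wx.trX P0 hJ)

end Vale.Agent.P022S.H86
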