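import Vale.Agent.P022S.Top.Su
import Vale.Agent.P022G.Tr.Big
import Vale.Agent.P022E.Top.Core
import Vale.Agent.P022D.Top.Main

/-!
P022S: the theorem in fixed weight from the theorem for the fixed data.
-/

set_option linter.all false

open Matrix NumberField IsLocalRing

noncomputable section

namespace Vale.Agent.P022S.Top

open Vale.Agent.P022
open Vale.Agent.P027M.S (mx Inert)
open Vale.Agent.P022D.End Vale.Agent.P022D.Dk
open Vale.Agent.P022D.Top hiding COREn CORE MAIN TH END Su exSu ioW ioW_inj ioW_smul core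
open Vale.Agent.P022D.V (Co)
open Vale.Agent.P022E.Loc (Pl)
open Vale.Agent.P022E.Fm (Su)
open Vale.Agent.P022E.GW (H1)
open Vale.Agent.P022G.Top (dU intg_tr intg_dt intg_one)

/-- the fixed data with the auxiliary primes -/
structure Fx {O F : Type} [CommRing O] [IsLocalRing O] [Co O] [Field F] (U : Su O F)
    (X : Finset ℕ) (as : ℕ) : Prop where
  ok : U.OkS
  pi : Irreducible U.ϖ
  l0 : U.S.l0 = 0
  okG : P022S.Loc.OkG U.L (gS U.S)
  hH : U.L.H = ⊤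
  irr : ∃ g h, (U.L.r g * U.L.r h - U.L.r h * U.L.r g).det ≠ 0
  unr : ∀ l : ℕ, l.Prime → (l ∉ U.S.T ∨ l ∈ X) → ∀ P : Ideal (𝓞 Qb), P.IsPrime →
    (l : 𝓞 Qb) ∈ P → ∀ s, Inert P s → U.L.r s = 1
  sub : X ⊆ U.L.C
  big : 3 * (U.L.C \ X).card + 10 ≤ X.card
  one : ∀ a ∈ X, a % 8 = 1
  mem : as ∈ X
  mv1 : ∃ z : Qb, z ^ 4 = 2 ∧ U.L.φ as z ≠ z
  mv2 : ∃ z : Qb, z ^ 8 = -4 ∧ U.L.φ as z ≠ z
  gen : ∃ (k : ℕ) (g : Fin k → GQ), 2 * k ≤ X.card ∧
    ∀ c ∈ H1 (1 : GQ →* GL (Fin 2) F) (U.S.T \ X) ⊤, (∀ i, c (g i) = 0) → c = 0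
  im : ∃ y : O, y * y = -1
  drop : 2 ≤ (U.L.C \ X).card → ∀ h, (dU U X h).OkS
  omX : ∀ x y, x ≡ y [MOD ∏ l ∈ U.L.C \ X, l] → U.om x = U.om y

/-- the theorem for the fixed data -/
def MID : Prop := ∀ (E : Type) [NontriviallyNormedField E] [IsUltrametricDist E]
  [NormedAlgebra ℚ_[2] E] [FiniteDimensional ℚ_[2] E] [Co (Ob E)] (r : GQ →* GL (Fin 2) E)
  (U : Su (Ob E) (ResidueField (Ob E))) (X : Finset ℕ) (as N : ℕ) [NeZero (N ^ 2)], Fx U X as →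
  (∀ g, ((U.L.r g).trace : E) = (r g : Matrix (Fin 2) (Fin 2) E).trace) →
  (∀ g, ((U.L.r g).det : E) = (r g : Matrix (Fin 2) (Fin 2) E).det) →
  N = ∏ l ∈ U.L.C \ X, l → LimR (N ^ 2) r

variable {E : Type} [NontriviallyNormedField E] [IsUltrametricDist E]
  [NormedAlgebra ℚ_[2] E] [FiniteDimensional ℚ_[2] E]

/-- the theorem over a field with enough roots of unity -/
theorem core0 (hL : MID) {R N₀ : ℕ} [NeZero R] [NeZero N₀] {r : GQ →* GL (Fin 2) E}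
    {S X : Finset ℕ} {ω : (ZMod R)ˣ →* Eˣ} {i as : ℕ} (hc : Continuous r)
    (ho : OddRep r) (hM : Sca r) (hd : DetOne r) (hS : ∀ l ∈ S, l.Prime ∧ l ≠ 2)
    (hR : R = ∏ l ∈ S, l) (hu : ∀ p : ℕ, p.Prime → p ≠ 2 → p ∉ S → UnrAt r p)
    (hi : 1 ≤ i) (hW : DetW r R ω i)
    (hX : ∀ a ∈ X, a.Prime ∧ a ∉ insert 0 (insert 2 S) ∧ a % 8 = 1) (mem : as ∈ X)
    (mv : ∀ φ : GQ, IsFrob as φ →
      (∃ z : Qb, z ^ 4 = 2 ∧ φ z ≠ z) ∧ ∃ z : Qb, z ^ 8 = -4 ∧ φ z ≠ z)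
    (b1 : 3 * S.card + 10 ≤ X.card) {k : ℕ} {g : Fin k → GQ} (b2 : 2 * k ≤ X.card)
    (hg : ∀ c ∈ H1 (1 : GQ →* GL (Fin 2) (ResidueField (Ob E))) (insert 0 (insert 2 S)) ⊤,
      (∀ i, c (g i) = 0) → c = 0)
    {ζ w y : E} (hζ : IsPrimitiveRoot ζ (R * ∏ a ∈ X, a)) (hw : IsPrimitiveRoot w 3)
    (hy : y * y = -1) : LimR ((N₀ * R) ^ 2) r := by
  classical
  obtain ⟨co⟩ := P022D.V.emb E (Ob E) fun x => mem_Ob
  have x2 : ∀ a ∈ X, a ≠ 2 := fun a ha e =>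
    (hX a ha).2.1 (e ▸ Finset.mem_insert_of_mem (Finset.mem_insert_self _ _))
  have xS : ∀ a ∈ X, a ∉ S := fun a ha e =>
    (hX a ha).2.1 (Finset.mem_insert_of_mem (Finset.mem_insert_of_mem e))
  obtain ⟨U, h0, hU, hU', hϖ, hC, hH, hr, hred, l0, -, hom⟩ := exSu hc ho hM hd hS hR hu hi hW
    (A := X) (fun a ha => ⟨(hX a ha).1, x2 a ha, xS a ha⟩) (by omega) hζ hw
  have eT0 : U.S.T = insert 0 (insert 2 (S ∪ X)) := by
    rw [hU.ok.hT, hU.ok.W0, hC, Finset.empty_union]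
  have eT : U.S.T \ X = insert 0 (insert 2 S) := by
    rw [eT0, ← Finset.insert_union, ← Finset.insert_union,
      Finset.union_sdiff_cancel_right (Finset.disjoint_right.2 fun a ha => (hX a ha).2.1)]
  have eS : U.L.C \ X = S := by
    rw [hC, Finset.union_sdiff_cancel_right (Finset.disjoint_right.2 xS)]
  have sub : X ⊆ U.L.C := hC ▸ Finset.subset_union_right
  have h1 := Finset.mem_union_right U.L.W (sub mem)
  have fr := mv _ ⟨U.L.P as, (hU.ok.hP as h1).1, (hU.ok.hP as h1).2, (hU.ok.tm as h1).frob⟩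
  have y1 : ‖y‖ = 1 := norm_root (n := 4) (by norm_num) (by
    rw [show y ^ 4 = (y * y) * (y * y) by ring, hy]; ring)
  haveI : NeZero (R ^ 2) := ⟨pow_ne_zero _ (NeZero.ne R)⟩
  refine P022D.Fm.Out.raise (pow_dvd_pow_of_dvd (dvd_mul_left R N₀) 2) (hL E r U X as R
    ⟨hU, hϖ, l0, okG_of hU.ok hH fun g => by rw [hr, hred]; exact hM.red hd g, hH, ?_,
      fun l hl h P hP hl' s hs => ?_, sub, eS ▸ b1, fun a ha => (hX a ha).2.2, mem, fr.1, fr.2,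
      ⟨k, g, b2, eT ▸ hg⟩, ⟨⟨y, mem_Ob.2 y1.le⟩, Subtype.ext hy⟩, fun s2 _ => hU' (eS ▸ s2),
      fun a b e => ?_⟩
    (hr ▸ intg_tr) (hr ▸ intg_dt) (eS ▸ hR))
  · obtain ⟨a, b, e⟩ := hM.irr
    refine ⟨a, b, fun z => e ?_⟩
    have := congrArg (Ob E).subtype z
    rw [hr, RingHom.map_det, map_sub, map_mul, map_mul, map_zero] at this
    exact this
  · rw [hr, intg_one]
    refine hu l hl (fun e => ?_) (fun e => ?_) P hP hl' s hs
    · exact h.elim (fun h => h (e ▸ eT0 ▸ Finset.mem_insert_of_mem (Finset.mem_insert_self _ _)))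
        fun h => x2 l h e
    · exact h.elim (fun h => h (eT0 ▸ Finset.mem_insert_of_mem (Finset.mem_insert_of_mem
        (Finset.mem_union_left _ e)))) fun h => xS l h e
  · rw [eS, ← hR] at e
    rw [hom]
    exact Subtype.ext (congrArg (MulChar.ofUnitHom ω) ((ZMod.natCast_eq_natCast_iff _ _ _).2 e))

/-- **CORE** -/
theorem core (hL : MID) : CORE := by
  intro R N₀ _ _
  refine ⟨1, one_pos, ?_⟩
  intro E _ _ _ _ r S ω i hc ho hM hd hS hR hu hv hi hW _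
  obtain ⟨k, g, hg⟩ := P022G.Tr.big ⊤ (insert 0 (insert 2 S))
  obtain ⟨X, as, hn, mem, hX, mv⟩ := exXS (insert 0 (insert 2 S))
    (max (3 * S.card + 10) (2 * k))
  have A0 : ∏ a ∈ X, a ≠ 0 := Finset.prod_ne_zero_iff.2 fun a ha => (hX a ha).1.ne_zero
  have n0 := Nat.pos_of_ne_zero (mul_ne_zero (NeZero.ne R) A0)
  generalize hm : R * ∏ a ∈ X, a = m at n0
  obtain ⟨E', i1, i2, i3, i4, i5, i6, hp⟩ := ext_split E (Polynomial.cyclotomic (m * 12) E)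
  haveI : CharZero E' := charZero_of_injective_algebraMap (algebraMap ℚ_[2] E').injective
  have m0 : 0 < m * 12 := by omega
  rw [Polynomial.map_cyclotomic] at hp
  obtain ⟨ζ, hζ⟩ := hp.exists_eval_eq_zero (by
    rw [Polynomial.degree_cyclotomic]
    exact_mod_cast (Nat.totient_pos.2 m0).ne')
  haveI : NeZero ((m * 12 : ℕ) : E') := ⟨by exact_mod_cast m0.ne'⟩
  have hζ' : IsPrimitiveRoot ζ (m * 12) := Polynomial.isRoot_cyclotomic_iff.1 hζ
  have h4 : IsPrimitiveRoot (ζ ^ (m * 3)) 4 := hζ'.pow m0 (by ring)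
  have h2 : IsPrimitiveRoot ((ζ ^ (m * 3)) ^ 2) 2 := h4.pow (by norm_num) rfl
  have h := core0 (N₀ := N₀) hL (ω := bcc E' ω) (bc_cont E' hc) (H20.bc_odd.2 ho) (hM.ext E')
    (detOne_bc E' hd) hS hR (fun p a b c => H20.bc_unrAt.2 (hu p a b c)) hi
    (fun ε hε => (hW ε hε).imp fun j hj g a u h1 h2 => by
      have := hj g a u h1 h2
      rw [← norm_algebraMap' E', map_sub, map_mul, map_pow, map_natCast] at this
      rw [H20.bc_det, bcc_coe]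
      exact this) hX mem mv ((le_max_left _ _).trans hn) ((le_max_right _ _).trans hn)
    (hg _ 1 MonoidHom.ker_one ((Set.eq_univ_of_forall fun _ => rfl : {g : GQ |
      (1 : GQ →* GL (Fin 2) (ResidueField (Ob E'))) g = 1} = Set.univ) ▸ isOpen_univ))
    (ζ := ζ ^ 12) (w := ζ ^ (m * 4)) (hm ▸ hζ'.pow m0 (mul_comm _ _)) (hζ'.pow m0 (by ring))
    (y := ζ ^ (m * 3)) (by rw [← sq]; exact h2.eq_neg_one_of_two_right)
  intro φ hφ ε hε
  refine (h φ hφ ε hε).imp fun j hj x hx => ?_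
  have := hj x hx
  rwa [lift_bc, norm_algebraMap'] at this

end Vale.Agent.P022S.Top
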