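import Vale.Agent.P022S.Top.MidH86

/-!
P022S: the theorem in fixed weight from the Galois side.
-/

noncomputable section

namespace Vale.Agent.P022S.H86

theorem midS (h : L2X) : Top.MID :=
  fun E _ _ _ _ _ r U X as N _ f a b c => mid h E r U X as N f f.omX a b c

theorem coreS (h : L2X) : Top.CORE := Top.core (midS h)

end Vale.Agent.P022S.H86
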