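import Vale.Agent.P022S.Top.Core

/-!
P022S: the theorem in fixed weight from the theorem for the fixed data.
-/

set_option linter.all false

open Matrix NumberField IsLocalRing

noncomputable section

namespace Vale.Agent.P022S.Top

open Vale.Agent.P022
open Vale.Agent.P027M.S (mx Inert)
open Vale.Agent.P022D.End Vale.Agent.P022D.Dk
open Vale.Agent.P022D.Top hiding COREn CORE MAIN TH END Su exSu ioW ioW_inj ioW_smul core
open Vale.Agent.P022D.V (Co)
open Vale.Agent.P022E.Loc (Pl)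
open Vale.Agent.P022E.Fm (Su)
open Vale.Agent.P022E.GW (H1)
open Vale.Agent.P022G.Top (dU intg_tr intg_dt intg_one)

/-- the theorem for the fixed data -/
def MIDX : Prop := ∀ (E : Type) [NontriviallyNormedField E] [IsUltrametricDist E]
  [NormedAlgebra ℚ_[2] E] [FiniteDimensional ℚ_[2] E] [Co (Ob E)] (r : GQ →* GL (Fin 2) E)
  (U : Su (Ob E) (ResidueField (Ob E))) (X : Finset ℕ) (as N : ℕ) [NeZero (N ^ 2)], Fx U X as →
  (∀ x y, x ≡ y [MOD ∏ l ∈ U.L.C \ X, l] → U.om x = U.om y) →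
  (∀ g, ((U.L.r g).trace : E) = (r g : Matrix (Fin 2) (Fin 2) E).trace) →
  (∀ g, ((U.L.r g).det : E) = (r g : Matrix (Fin 2) (Fin 2) E).det) →
  N = ∏ l ∈ U.L.C \ X, l → LimR (N ^ 2) r

/-- **CORE** -/
theorem coreX (hL : MIDX) : CORE :=
  core fun E _ _ _ _ _ r U X as N _ h => hL E r U X as N h h.omX

end Vale.Agent.P022S.Top
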