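import Vale.Agent.P022D.R.Defs
import Vale.Agent.P022G.Ax.X

/-!
P022S: a representation with non abelian image, and the auxiliary primes.
-/

set_option linter.all false

open Matrix NumberField Polynomial

noncomputable section

namespace Vale.Agent.P022S.Top

open Vale.Agent.P022
open Vale.Agent.P027M.S (mx Inert)
open Vale.Agent.P022D.Dk (Cy8 H8)
open Vale.Agent.P022E.GW Vale.Agent.P022E.GW.Kc
open Vale.Agent.P022G.Obs (FX)
open Vale.Agent.P022G.Ax

open Classical in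
/-- the induced representation -/
def indS {G F : Type} [Group G] [Field F] (p : G → Prop) (a : G → F) (p1 : p 1) (a1 : a 1 = 1)
    (pm : ∀ g h, p (g * h) ↔ (p g ↔ p h)) (a3 : ∀ g, a g ^ 3 = 1)
    (e1 : ∀ g h, p g → a (g * h) = a g * a h) (e2 : ∀ g h, ¬ p g → a (g * h) = a g * a h ^ 2) :
    G →* Matrix (Fin 2) (Fin 2) F where
  toFun g := if p g then !![a g, 0; 0, a g ^ 2] else !![0, a g; a g ^ 2, 0]
  map_one' := by rw [if_pos p1, a1, one_pow, Matrix.one_fin_two]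
  map_mul' g h := by
    have k : (a g * a h ^ 2) ^ 2 = a g ^ 2 * a h := by linear_combination a g ^ 2 * a h * a3 h
    by_cases x : p g <;> by_cases y : p h
    · rw [if_pos ((pm g h).2 (iff_of_true x y)), if_pos x, if_pos y, e1 g h x, mul_pow]
      simp [Matrix.mul_fin_two]
    · rw [if_neg fun z => y (((pm g h).1 z).1 x), if_pos x, if_neg y, e1 g h x, mul_pow]
      simp [Matrix.mul_fin_two]
    · rw [if_neg fun z => x (((pm g h).1 z).2 y), if_neg x, if_pos y, e2 g h x, k]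
      simp [Matrix.mul_fin_two]
    · rw [if_pos ((pm g h).2 (iff_of_false x y)), if_neg x, if_neg y, e2 g h x, k]
      simp [Matrix.mul_fin_two]

theorem cjr {f : ℚ[X]} (hf : Irreducible f) (hm : f.Monic) {x y : Qb} (hx : aeval x f = 0)
    (hy : aeval y f = 0) : ∃ g : GQ, g x = y := by
  haveI := H916.isGalois_Qb
  have h : IsConjRoot ℚ y x := by
    rw [IsConjRoot, ← minpoly.eq_of_irreducible_of_monic hf hx hm,
      ← minpoly.eq_of_irreducible_of_monic hf hy hm]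
  exact h.exists_algEquiv

/-- a representation with a regular diagonal element which is not diagonal -/
theorem ex_dum {F : Type} [Field F] {ζ : F} (hζ : IsPrimitiveRoot ζ 3) :
    ∃ (rb : GQ →* GL (Fin 2) F) (g0 g1 : GQ), mx rb g0 0 1 = 0 ∧ mx rb g0 1 0 = 0 ∧
      mx rb g0 0 0 ≠ mx rb g0 1 1 ∧ mx rb g1 0 1 ≠ 0 := by
  classical
  obtain ⟨α, hα⟩ := IsAlgClosed.exists_pow_nat_eq (2 : Qb) (n := 3) (by norm_num)
  obtain ⟨w, hw⟩ := HasEnoughRootsOfUnity.exists_primitiveRoot Qb 3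
  have α0 : α ≠ 0 := fun e => by rw [e] at hα; norm_num at hα
  have w3 := hw.pow_eq_one
  have w0 : w ≠ 0 := hw.ne_zero (by norm_num)
  have w1 : w ≠ 1 := hw.ne_one (by norm_num)
  have hk : ∀ g : GQ, ∃ k : ℕ, g α = w ^ k * α := fun g => by
    obtain ⟨k, -, h⟩ := hw.eq_pow_of_pow_eq_one (ξ := g α / α) (by
      rw [div_pow, ← map_pow, hα, gc, div_self two_ne_zero])
    exact ⟨k, by rw [h, div_mul_cancel₀ _ α0]⟩
  choose k hk using hk
  have key : ∀ m n : ℕ, w ^ m * α = w ^ n * α → ζ ^ m = ζ ^ n := fun m n h => by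
    have h1 := mul_right_cancel₀ α0 h
    rw [pow_eq_pow_mod m w3, pow_eq_pow_mod n w3] at h1
    rw [pow_eq_pow_mod m hζ.pow_eq_one, pow_eq_pow_mod n hζ.pow_eq_one,
      hw.pow_inj (Nat.mod_lt _ (by norm_num)) (Nat.mod_lt _ (by norm_num)) h1]
  have ww : w ^ 2 + w + 1 = 0 := by
    refine (mul_eq_zero.1 ?_).resolve_left (sub_ne_zero.2 w1)
    linear_combination w3
  have w2 : w ^ 2 ≠ w := fun e => w1 (mul_left_cancel₀ w0 (by rw [← sq, e, mul_one]))
  have od : ∀ g : GQ, g w ≠ w → g w = w ^ 2 := fun g h => by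
    have h1 := congrArg g ww
    rw [map_add, map_add, map_pow, map_one, map_zero] at h1
    refine sub_eq_zero.1 ((mul_eq_zero.1 ?_).resolve_left (sub_ne_zero.2 h))
    linear_combination h1 + (1 - g w) * ww - ww + w3 - ww + ww
  have pm : ∀ g h : GQ, (g * h) w = w ↔ (g w = w ↔ h w = w) := fun g h => by
    rw [AlgEquiv.mul_apply]
    by_cases x : g w = w <;> by_cases y : h w = w
    · rw [y]
      simp [x]
    · rw [od h y, map_pow, x]
      simp [w2]
    · rw [y]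
      simp [x]
    · rw [od h y, map_pow, od g x]
      refine iff_of_true (by linear_combination w * w3) (iff_of_false w2 w2)
  have a3 : ∀ g, (ζ ^ k g) ^ 3 = 1 := fun g => by
    rw [← pow_mul, mul_comm, pow_mul, hζ.pow_eq_one, one_pow]
  have e1 : ∀ g h : GQ, g w = w → ζ ^ k (g * h) = ζ ^ k g * ζ ^ k h := fun g h x => by
    rw [← pow_add]
    refine key _ _ ?_
    rw [← hk, AlgEquiv.mul_apply, hk h, map_mul, map_pow, x, hk g]
    ring
  have e2 : ∀ g h : GQ, ¬ g w = w → ζ ^ k (g * h) = ζ ^ k g * (ζ ^ k h) ^ 2 := fun g h x => by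
    rw [← pow_mul, ← pow_add]
    refine key _ _ ?_
    rw [← hk, AlgEquiv.mul_apply, hk h, map_mul, map_pow, od g x, hk g]
    ring
  have a1 : ζ ^ k 1 = 1 := (key _ 0 (by rw [← hk, pow_zero, one_mul]; rfl)).trans (pow_zero _)
  have ir : Irreducible (X ^ 3 - C (2 : ℚ)) :=
    X_pow_sub_C_irreducible_of_prime Nat.prime_three fun b hb => by
      have h1 := congrArg (padicValRat 2) hb
      haveI : Fact (Nat.Prime 2) := ⟨Nat.prime_two⟩
      rw [padicValRat.pow b, show (2 : ℚ) = ((2 : ℕ) : ℚ) from rfl,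
        padicValRat.self one_lt_two] at h1
      push_cast at h1
      omega
  have mv : ∀ n : ℕ, ∃ g : GQ, g α = w ^ n * α := fun n =>
    cjr ir (monic_X_pow_sub_C _ (by norm_num)) (by simp [hα]) (by
      have : (w ^ n) ^ 3 = 1 := by rw [← pow_mul, mul_comm, pow_mul, w3, one_pow]
      simp [mul_pow, hα, this])
  obtain ⟨g0, x0, y0⟩ : ∃ g : GQ, g w = w ∧ g α ≠ α := by
    obtain ⟨s, hs⟩ := mv 1
    obtain ⟨t, ht⟩ := mv 2
    have n2 : w ^ 2 * α ≠ α := fun e => w2 (by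
      have := mul_right_cancel₀ α0 (e.trans (one_mul α).symm)
      linear_combination (1 + w) * this - w3)
    by_cases a : s w = w
    · exact ⟨s, a, fun e => w1 (mul_right_cancel₀ α0 (by rw [← pow_one w, ← hs, e, one_mul]))⟩
    by_cases b : t w = w
    · exact ⟨t, b, ht ▸ n2⟩
    refine ⟨s * t, (pm s t).2 (iff_of_false a b), fun e => n2 ?_⟩
    rw [AlgEquiv.mul_apply, ht, map_mul, map_pow, od s a, hs] at e
    linear_combination e - w ^ 2 * α * w3
  obtain ⟨g1, x1⟩ := cjr (cyclotomic.irreducible_rat (n := 3) (by norm_num))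
    (cyclotomic.monic 3 ℚ) (x := w) (y := w ^ 2) (by simp [cyclotomic_three, ww]) (by
      simp only [cyclotomic_three, map_add, map_pow, aeval_X, map_one]
      linear_combination ww + w * w3)
  have z0 : ∀ g, ζ ^ k g ≠ 0 := fun g => pow_ne_zero _ (hζ.ne_zero (by norm_num))
  let ρ := indS (fun g : GQ => g w = w) (fun g => ζ ^ k g) rfl a1 pm a3 e1 e2
  have r0 : mx ρ.toHomUnits g0 = !![ζ ^ k g0, 0; 0, (ζ ^ k g0) ^ 2] := if_pos x0
  have r1 : mx ρ.toHomUnits g1 = !![0, ζ ^ k g1; (ζ ^ k g1) ^ 2, 0] :=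
    if_neg fun e => w2 (x1.symm.trans e)
  refine ⟨ρ.toHomUnits, g0, g1, by rw [r0]; rfl, by rw [r0]; rfl, ?_, by rw [r1]; exact z0 _⟩
  rw [r0]
  intro e
  have e' : ζ ^ k g0 = (ζ ^ k g0) ^ 2 := e
  have h1 : ζ ^ k g0 = 1 := mul_left_cancel₀ (z0 g0) (by rw [← sq, ← e', mul_one])
  refine y0 ?_
  rw [hk, (hw.pow_eq_one_iff_dvd _).2 ((hζ.pow_eq_one_iff_dvd _).1 h1), one_mul]

/-- **the auxiliary set** -/
theorem exXS (S : Finset ℕ) (n : ℕ) : ∃ (X : Finset ℕ) (as : ℕ), n ≤ X.card ∧ as ∈ X ∧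
    (∀ a ∈ X, a.Prime ∧ a ∉ S ∧ a % 8 = 1) ∧
    (∀ φ : GQ, IsFrob as φ →
      (∃ z : Qb, z ^ 4 = 2 ∧ φ z ≠ z) ∧ ∃ z : Qb, z ^ 8 = -4 ∧ φ z ≠ z) := by
  classical
  obtain ⟨g, z, w, g8, z4, w8, gz, gw⟩ := ex_mv
  let V := H8 ⊓ MulAction.stabilizer GQ z ⊓ MulAction.stabilizer GQ w
  have hV : IsOpen (V : Set GQ) := (h8_open.inter (stab_open _)).inter (stab_open _)
  obtain ⟨R, -, hR⟩ := Hy.ex_ram (P022D.Sel.opn_core V hV)
  obtain ⟨B, B1, B2⟩ := many ⊤ isOpen_univ S n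
  obtain ⟨l, lS, P, φ, hO, hF, m, om, v, ⟨⟨v2, v3⟩, v4⟩, e⟩ :=
    frob_in V hV g (insert 2 (S ∪ R))
  rw [Finset.mem_insert, not_or] at lS
  have f2 : φ ∈ H8 := e ▸ H8.mul_mem (H8.pow_mem (x := g) g8 m) v2
  have mv : ∀ x : Qb, g x = -x → v x = x → φ x = -x := fun x p q => by
    rw [e, AlgEquiv.mul_apply, q, odd_neg p om]
  refine ⟨insert l B, l, B1.trans (Finset.card_le_card (Finset.subset_insert _ _)),
    Finset.mem_insert_self _ _, fun a ha => ?_, fun φ' ⟨P', o1, o2, f⟩ => ?_⟩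
  · rcases Finset.mem_insert.1 ha with rfl | ha
    · exact ⟨hO.1, fun k => lS.2 (Finset.mem_union_left _ k), mod8 hO lS.1 hF f2⟩
    · obtain ⟨a1, a2, Q, ψ, a3, -⟩ := B2 a ha
      exact ⟨a3.1, a1, a2⟩
  · have o : Ov l P' := ⟨hO.1, o1, o2⟩
    obtain ⟨t, i, hi, rfl⟩ := frob_cj hO o hF f
    have iN := hR l (fun q => lS.2 (Finset.mem_union_right _ q)) P' o i hi
    have iV : t⁻¹ * i * t⁻¹⁻¹ ∈ V := V.normalCore_le (V.normalCore_normal.conj_mem i iN t⁻¹)
    rw [inv_inv] at iV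
    have k : ∀ x : Qb, x ≠ 0 → φ x = -x → (t⁻¹ * i * t) x = x →
        (i * (t * φ * t⁻¹)) (t x) ≠ t x := fun x x0 p q r => by
      have e1 : i * (t * φ * t⁻¹) * t = t * (t⁻¹ * i * t) * φ := by group
      rw [← AlgEquiv.mul_apply, e1, AlgEquiv.mul_apply, AlgEquiv.mul_apply, p, map_neg, q] at r
      exact ne_neg x0 (t.injective r)
    exact ⟨⟨t z, by rw [← map_pow, z4, gc], k z (by rintro rfl; norm_num at z4) (mv z gz v3)
      iV.1.2⟩, t w, by rw [← map_pow, w8, map_neg, map_ofNat],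
      k w (by rintro rfl; norm_num at w8) (mv w gw v4) iV.2⟩

end Vale.Agent.P022S.Top
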