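import Vale.Agent.P022S.Top.Fin
import Vale.Agent.P022S.Top.Core

/-!
P022S: the top of the proof when two odd primes ramify.
-/

set_option linter.all false

open Matrix NumberField IsLocalRing

noncomputable section

namespace Vale.Agent.P022S.Fb

section

open Vale.Agent.P022 Vale.Agent.P022.H567.Tw Vale.Agent.P022.H853 Vale.Agent.P022.H790.CT
  Vale.Agent.P022D.Dk Vale.Agent.P022D.End
open Vale.Agent.P022D.Top hiding COREn CORE MAIN TH END
open Vale.Agent.P022S.Top hiding COREn CORE MAIN wtS endS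

/-- two odd primes ramify -/
def Tw2 {E : Type} [Field E] (r : GQ →* GL (Fin 2) E) : Prop :=
  ∃ p q : ℕ, p ≠ q ∧ (p ≠ 2 ∧ p.Prime ∧ ¬ UnrAt r p) ∧ q ≠ 2 ∧ q.Prime ∧ ¬ UnrAt r q

/-- the theorem in fixed weight `i + 1` over fields with a primitive `n`-th root of unity; `S` is
a set of odd primes with product `R` -/
def COREn (R N₀ n : ℕ) [NeZero R] [NeZero N₀] : Prop :=
  ∀ (E : Type) [NontriviallyNormedField E] [NormedAlgebra ℚ_[2] E]
  [IsUltrametricDist E] [FiniteDimensional ℚ_[2] E] (r : GQ →* GL (Fin 2) E)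
  (S : Finset ℕ) (ω : (ZMod R)ˣ →* Eˣ) (i : ℕ),
  Continuous r → OddRep r → Sca r → DetOne r → (∀ l ∈ S, l.Prime ∧ l ≠ 2) →
  2 ≤ S.card → R = ∏ l ∈ S, l → (∀ p : ℕ, p.Prime → p ≠ 2 → p ∉ S → UnrAt r p) → Lev r N₀ → 1 ≤ i →
  DetW r R ω i → (∃ ζ : E, IsPrimitiveRoot ζ n) → LimR ((N₀ * R) ^ 2) r

/-- **CORE** -/
def CORE : Prop := ∀ (R N₀ : ℕ) [NeZero R] [NeZero N₀], ∃ n : ℕ, 0 < n ∧ COREn R N₀ n

/-- the theorem for balanced integral models -/
def MAIN : Prop := ∀ (E : Type) [NontriviallyNormedField E] [NormedAlgebra ℚ_[2] E]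
  [IsUltrametricDist E] [FiniteDimensional ℚ_[2] E] (r : GQ →* GL (Fin 2) E),
  Continuous r → OddRep r → {p : ℕ | p.Prime ∧ ¬ UnrAt r p}.Finite → Sca r → Tw2 r → Q1Concl E r

/-- the interpolation in the weight -/
theorem wtS {R N₀ n : ℕ} [NeZero R] [NeZero N₀] (hC : COREn R N₀ n) (E : Type)
    [NontriviallyNormedField E] [NormedAlgebra ℚ_[2] E] [IsUltrametricDist E]
    [FiniteDimensional ℚ_[2] E] (r : GQ →* GL (Fin 2) E) (S : Finset ℕ)
    (ω : (ZMod R)ˣ →* Eˣ) (ψ : GQ →* Eˣ) (i : ℕ) (hc : Continuous r) (ho : OddRep r)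
    (hM : Sca r) (hd : DetOne r) (hS : ∀ l ∈ S, l.Prime ∧ l ≠ 2)
    (s2 : 2 ≤ S.card) (hR : R = ∏ l ∈ S, l)
    (hu : ∀ p : ℕ, p.Prime → p ≠ 2 → p ∉ S → UnrAt r p) (hL : Lev r N₀) (hi : 1 ≤ i)
    (hψ : KW2 ψ) (hdet : ∀ g, (r g : Matrix (Fin 2) (Fin 2) E).det =
      ((ω (cyc R g) : Eˣ) : E) * ((ψ g : Eˣ) : E) ^ 2 * ((chiE E g : Eˣ) : E) ^ i)
    (hz : ∃ ζ : E, IsPrimitiveRoot ζ n) : Occurs E ((N₀ * R) ^ 2) r := by
  have hcE : CompleteSpace E := FiniteDimensional.complete ℚ_[2] E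
  choose φ hφ using fun l : PA ((N₀ * R) ^ 2) => H20.exists_isFrob l.2.1
  have h2 : ∀ l : PA ((N₀ * R) ^ 2), l.1 ≠ 2 := fun l h => l.2.2 (by
    rw [h]
    exact dvd_mul_right 2 _)
  have hν : ∀ ν : ℕ, Lim ((N₀ * R) ^ 2)
      (twc (fun l => (l.1 : E) ^ ν) (sys (tws ψ⁻¹ r) φ)) := by
    intro ν
    have hk : KW2 (chiE E ^ ν * ψ⁻¹) := (kw2_chi.pow ν).mul hψ.inv
    have h := hC E (tws (chiE E ^ ν * ψ⁻¹) r) S ω (i + 2 * ν) (continuous_tws hk.cont hc)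
      (odd_tws ho) (hM.tw hk.norm) (detOne_tws hk.res hd) hS s2 hR
      (fun p hp hp2 hpS => unr_tws (fun P hP hpP g hg => hk.unr hp hp2 hP hpP hg) (hu p hp hp2 hpS))
      (lev_tws hk.res hM.int hL) (by omega) (detW_of fun g => by
        rw [tws_det, hdet, MonoidHom.mul_apply, MonoidHom.pow_apply, MonoidHom.inv_apply,
          Units.val_mul, Units.val_pow_eq_pow_val, Units.val_inv_eq_inv_val]
        have := (ψ g).ne_zero
        field_simp
        ring) hz φ hφ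
    have e : twc (fun l => (l.1 : E) ^ ν) (sys (tws ψ⁻¹ r) φ) =
        sys (tws (chiE E ^ ν * ψ⁻¹) r) φ := by
      funext s
      rcases s with l | l
      · change (l.1 : E) ^ ν * (tws ψ⁻¹ r (φ l) : Matrix (Fin 2) (Fin 2) E).trace =
          (tws (chiE E ^ ν * ψ⁻¹) r (φ l) : Matrix (Fin 2) (Fin 2) E).trace
        rw [tws_tr, tws_tr, MonoidHom.mul_apply, MonoidHom.pow_apply, Units.val_mul,
          Units.val_pow_eq_pow_val, chiE_frob l.2.1 (h2 l) (hφ l), mul_assoc]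
      · change ((l.1 : E) ^ ν) ^ 2 * (tws ψ⁻¹ r (φ l) : Matrix (Fin 2) (Fin 2) E).det =
          (tws (chiE E ^ ν * ψ⁻¹) r (φ l) : Matrix (Fin 2) (Fin 2) E).det
        rw [tws_det, tws_det, MonoidHom.mul_apply, MonoidHom.pow_apply, Units.val_mul,
          Units.val_pow_eq_pow_val, chiE_frob l.2.1 (h2 l) (hφ l), mul_pow ((l.1 : E) ^ ν),
          mul_assoc]
    rwa [e]
  have h := lim_tw _ (sys_le (hM.tw hψ.inv.norm).int φ) ψ (fun g => (hψ.norm g).le) hψ φ hφ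
    hν
  have e : twc (fun l => ((ψ (φ l) : Eˣ) : E)) (sys (tws ψ⁻¹ r) φ) = sys r φ := by
    funext s
    rcases s with l | l
    · change ((ψ (φ l) : Eˣ) : E) * (tws ψ⁻¹ r (φ l) : Matrix (Fin 2) (Fin 2) E).trace =
        (r (φ l) : Matrix (Fin 2) (Fin 2) E).trace
      rw [tws_tr, MonoidHom.inv_apply, ← mul_assoc, Units.mul_inv, one_mul]
    · change ((ψ (φ l) : Eˣ) : E) ^ 2 * (tws ψ⁻¹ r (φ l) : Matrix (Fin 2) (Fin 2) E).det =
        (r (φ l) : Matrix (Fin 2) (Fin 2) E).det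
      rw [tws_det, MonoidHom.inv_apply, ← mul_assoc, ← mul_pow, Units.mul_inv, one_pow, one_mul]
  rw [e] at h
  refine occ_of_lim hM.int (fun l => hu l.1 l.2.1 (h2 l) fun hl => l.2.2 ?_) φ hφ h
  have : l.1 ∣ R := (Finset.dvd_prod_of_mem (fun l => l) hl).trans (dvd_of_eq hR.symm)
  exact ((this.mul_left N₀).trans (dvd_pow_self _ two_ne_zero)).mul_left 2

/-- **END** -/
theorem endS (hTH : TH) (hC : CORE) : MAIN := by
  classical
  intro E _ _ _ _ r hc ho hS hM hw2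
  have hcE : CompleteSpace E := FiniteDimensional.complete ℚ_[2] E
  let d : GQ →* Eˣ := Matrix.GeneralLinearGroup.det.comp r
  have hd : ∀ g, ((d g : Eˣ) : E) = (r g : Matrix (Fin 2) (Fin 2) E).det := fun _ => rfl
  have hdc : Continuous d := by
    rw [Units.isEmbedding_val₀.continuous_iff]
    exact (Units.continuous_val.comp hc).matrix_det
  obtain ⟨m, iNZ, ψf, ψ2, hm, hc2, hdec, hun2, -, hram⟩ := decomp C.GCHF d hdc hS.toFinset
    (fun p hp hpS P hP hpP g hg => by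
      have hur : UnrAt r p := by
        by_contra hne
        exact hpS (hS.mem_toFinset.2 ⟨hp, hne⟩)
      change Matrix.GeneralLinearGroup.det (r g) = 1
      rw [hur P hP hpP g hg, map_one])
  have hk2 : KW2 ψ2 := kw2_of hc2 hun2
  let S : Finset ℕ := hS.toFinset.erase 2
  have hmem : ∀ p, p ∈ S ↔ p ≠ 2 ∧ p.Prime ∧ ¬ UnrAt r p := fun p => by
    rw [Finset.mem_erase, hS.mem_toFinset]
    rfl
  let R : ℕ := ∏ l ∈ S, l
  have hRo : Odd R := Finset.prod_induction _ Odd (fun _ _ => Odd.mul) odd_one fun l hl =>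
    ((hmem l).1 hl).2.1.odd_of_ne_two ((hmem l).1 hl).1
  haveI : NeZero R := ⟨hRo.pos.ne'⟩
  have hRS : ∀ p : ℕ, p.Prime → p ∣ R → p ∈ S := fun p hp h => by
    obtain ⟨l, hl, h⟩ := (Prime.dvd_finsetProd_iff hp.prime _).1 h
    rwa [(Nat.prime_dvd_prime_iff_eq hp ((hmem l).1 hl).2.1).1 h]
  have hmS : ∀ p : ℕ, p.Prime → p ∣ m → p ∈ S := fun p hp h => by
    refine (hmem p).2 ⟨?_, hp, fun hu => ?_⟩
    · rintro rfl
      exact (Nat.not_even_iff_odd.2 hm) (even_iff_two_dvd.2 h)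
    · obtain ⟨P, hP, hpP, g, hg, hne⟩ := hram p hp h
      apply hne
      change Matrix.GeneralLinearGroup.det (r g) = 1
      rw [hu P hP hpP g hg, map_one]
  obtain ⟨a, b, hb, hab⟩ := Nat.exists_eq_two_pow_mul_odd
    (Fintype.card_ne_zero (α := (ZMod m)ˣ))
  obtain ⟨e, t, het⟩ := ex_exp b a hb
  let μ : (ZMod m)ˣ →* Eˣ := ψf ^ (2 ^ a * e)
  let ω₀ : (ZMod m)ˣ →* Eˣ := ψf * (μ ^ 2)⁻¹
  have hω₀ : ∀ u, ω₀ u ^ 2 ^ a = 1 := by
    intro u
    have h1 : ψf u ^ (2 ^ a * b) = 1 := by rw [← hab, ← map_pow, pow_card_eq_one, map_one]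
    change (ψf u * ((ψf u ^ (2 ^ a * e)) ^ 2)⁻¹) ^ 2 ^ a = 1
    have h2 : (ψf u ^ 2 ^ a) ^ (2 * (2 ^ a * e) + b) = (ψf u ^ 2 ^ a) ^ (1 + b * t) := by rw [het]
    rw [pow_add, pow_add, pow_one, pow_mul (ψf u ^ 2 ^ a) b t, ← pow_mul (ψf u) (2 ^ a) b, h1,
      one_pow, mul_one, mul_one] at h2
    rw [mul_pow, inv_pow, mul_inv_eq_one, ← h2]
    simp only [← pow_mul]
    congr 1
    ring
  obtain ⟨ω, hω⟩ := tame hRo (fun p hp h => Finset.dvd_prod_of_mem _ (hmS p hp h)) ω₀ hω₀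
  let μG : GQ →* Eˣ := μ.comp (cyc m)
  have hμn : ∀ g, ‖((μG⁻¹ g : Eˣ) : E)‖ = 1 := fun g => norm_char μ⁻¹ (cyc m g)
  have hμc : Continuous μG⁻¹ := by
    refine continuous_of_continuousAt_one μG⁻¹ (continuousAt_const.congr (f := fun _ => 1) ?_)
    filter_upwards [(isOpen_cyc m).mem_nhds (one_mem _)] with g hg
    change 1 = (μ (cyc m g))⁻¹
    rw [show cyc m g = 1 from hg, map_one, inv_one]
  let r₁ := tws μG⁻¹ r
  have hc₁ : Continuous r₁ := continuous_tws hμc hc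
  have hM₁ : Sca r₁ := hM.tw hμn
  have hu₁ : ∀ p : ℕ, p.Prime → p ≠ 2 → p ∉ S → UnrAt r₁ p := by
    intro p hp hp2 hpS
    refine unr_tws (fun P hP hpP g hg => ?_) (by
      by_contra hne
      exact hpS ((hmem p).2 ⟨hp2, hp, hne⟩))
    have h1 : cyc m g = 1 := Units.ext (by
      have := cyc_of_act (n := m) (a := 1) dvd_rfl (g := g) fun ζ hζ => by
        rw [pow_one]
        exact H811.L3.inert_zeta hm.pos hp
          ((Nat.Prime.coprime_iff_not_dvd hp).2 fun h => hpS (hmS p hp h)) P hP hpP hg ζ hζ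
      simpa using this)
    change (μ (cyc m g))⁻¹ = 1
    rw [h1, map_one, inv_one]
  have hdet₁ : ∀ g, (r₁ g : Matrix (Fin 2) (Fin 2) E).det =
      ((ω (cyc R g) : Eˣ) : E) * ((ψ2 g : Eˣ) : E) := by
    intro g
    rw [tws_det, ← hd, hdec, hω, ← Units.val_pow_eq_pow_val, ← Units.val_mul, ← Units.val_mul]
    congr 1
    change (μ (cyc m g))⁻¹ ^ 2 * (ψf (cyc m g) * ψ2 g) =
      ψf (cyc m g) * (μ (cyc m g) ^ 2)⁻¹ * ψ2 g
    rw [inv_pow, ← mul_assoc, mul_comm _ (ψf _)]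
  have hD₁ : DetOne r₁ := by
    intro g
    rw [hdet₁, hω]
    refine near (y := ((ψ2 g : Eˣ) : E) - 1) ?_ (hk2.res g)
    rw [sub_sub_sub_cancel_right]
    refine near_mul (norm_lt_of_pow a ?_) (hk2.norm g).le
    rw [← Units.val_pow_eq_pow_val, hω₀]
    simp
  obtain ⟨N₀, iN, hL⟩ := hTH E r₁ hc₁ ((S.finite_toSet.insert 2).subset fun p hp => by
    by_contra hne
    rw [Set.mem_insert_iff, not_or] at hne
    exact hp.2 (hu₁ p hp.1 hne.1 hne.2)) hM₁ hD₁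
  obtain ⟨n, hn, hCn⟩ := hC R N₀
  obtain ⟨c, hcc⟩ := H443.exists_isConj
  obtain ⟨i, hi, hic⟩ : ∃ i : ℕ, 1 ≤ i ∧ (ψ2 * (chiE E ^ i)⁻¹) c = 1 := by
    have h1 : ((ψ2 c : Eˣ) : E) ^ 2 = 1 := by
      rw [← Units.val_pow_eq_pow_val, ← map_pow, sq, H20.conj_sq hcc, map_one, Units.val_one]
    have h2 : ∀ i, ((ψ2 c : Eˣ) : E) = (-1) ^ i → (ψ2 * (chiE E ^ i)⁻¹) c = 1 := fun i h => by
      change ψ2 c * (chiE E c ^ i)⁻¹ = 1
      rw [mul_inv_eq_one]
      apply Units.ext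
      rw [h, Units.val_pow_eq_pow_val, chiE_conj hcc]
    rcases sq_eq_one_iff.1 h1 with h | h
    · exact ⟨2, by norm_num, h2 2 (by rw [h]; norm_num)⟩
    · exact ⟨1, le_rfl, h2 1 (by rw [h]; norm_num)⟩
  have hη : KW2 (ψ2 * (chiE E ^ i)⁻¹) := hk2.mul (kw2_chi.pow i).inv
  obtain ⟨g0, hg0, hg1⟩ := ex_five
  set η := ψ2 * (chiE E ^ i)⁻¹ with hηd
  obtain ⟨E', i1, i2, i3, i4, i5, i6, hp⟩ := ext_split E
    ((Polynomial.X ^ 2 - Polynomial.C ((η g0 : Eˣ) : E)) * Polynomial.cyclotomic n E)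
  have hcE' : CompleteSpace E' := FiniteDimensional.complete ℚ_[2] E'
  haveI : CharZero E' := charZero_of_injective_algebraMap (algebraMap ℚ_[2] E').injective
  rw [Polynomial.map_mul, Polynomial.map_cyclotomic, Polynomial.map_sub, Polynomial.map_pow,
    Polynomial.map_X, Polynomial.map_C] at hp
  have hne : (Polynomial.X ^ 2 - Polynomial.C (algebraMap E E' ((η g0 : Eˣ) : E))) *
      Polynomial.cyclotomic n E' ≠ 0 :=
    mul_ne_zero (Polynomial.X_pow_sub_C_ne_zero two_pos _) (Polynomial.cyclotomic_ne_zero n E')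
  obtain ⟨s, hs⟩ := (hp.of_dvd hne (dvd_mul_right _ _)).exists_eval_eq_zero (by
    rw [Polynomial.degree_X_pow_sub_C two_pos]; simp)
  obtain ⟨ζ, hζ⟩ := (hp.of_dvd hne (dvd_mul_left _ _)).exists_eval_eq_zero (by
    rw [Polynomial.degree_cyclotomic]
    exact_mod_cast (Nat.totient_pos.2 hn).ne')
  haveI : NeZero (n : E') := ⟨by exact_mod_cast hn.ne'⟩
  have hζ' : IsPrimitiveRoot ζ n := Polynomial.isRoot_cyclotomic_iff.1 hζ
  have hs' : s ^ 2 = ((bcc E' η g0 : E'ˣ) : E') := by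
    rw [bcc_coe]
    simpa [sub_eq_zero] using hs
  obtain ⟨ψ, hψ, hψ2⟩ := sqrt_char (hη.bc E') hcc (by
      change Units.map _ (η c) = 1
      rw [hic, map_one]) hg0 hg1 hs' (norm_lt_of_sq (by rw [hs']; exact (hη.bc E').res g0))
  have hocc := wtS hCn E' (bc E' r₁) S (bcc E' ω) ψ i (bc_cont E' hc₁)
    (H20.bc_odd.2 (odd_tws ho)) (hM₁.ext E') (detOne_bc E' hD₁)
    (fun l hl => ⟨((hmem l).1 hl).2.1, ((hmem l).1 hl).1⟩) (by
      obtain ⟨p, q, a, b, c⟩ := hw2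
      exact Finset.one_lt_card.2 ⟨p, (hmem p).2 b, q, (hmem q).2 c, a⟩) rfl
    (fun p hp hp2 hpS => H20.bc_unrAt.2 (hu₁ p hp hp2 hpS)) (lev_bc E' hL) hi hψ (fun g => by
      rw [H20.bc_det, hdet₁, ← Units.val_pow_eq_pow_val (ψ g), hψ2, bcc_coe, bcc_coe,
        ← chiE_bc E E', ← map_pow, ← map_mul, ← map_mul, mul_assoc]
      congr 2
      rw [← Units.val_pow_eq_pow_val, ← Units.val_mul]
      congr 1
      change ψ2 g = ψ2 g * (chiE E g ^ i)⁻¹ * chiE E g ^ i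
      rw [inv_mul_cancel_right]) ⟨ζ, hζ'⟩
  refine q1_desc r (1 : GL (Fin 2) E') ?_
  have e1 : cj 1 (bc E' r) = bc E' r := MonoidHom.ext fun g => by
    rw [cj_apply, inv_one, one_mul, mul_one]
  rw [e1]
  refine twist_main E' ((N₀ * R) ^ 2) m ((hL.odd.mul hRo).pow) hm (bcc E' μ) (bc E' r₁) _ hocc
    (fun g u hg => ?_) fun p hp hpd => ?_
  · have h1 : cyc m g = u := Units.ext ((cyc_of_act dvd_rfl hg).trans (ZMod.natCast_zmod_val _))
    ext i j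
    rw [Matrix.smul_apply, bc_ent, bc_ent, bcc_coe, smul_eq_mul, ← map_mul, tws_ent, ← mul_assoc,
      ← h1]
    congr 1
    change _ = ((μ (cyc m g) : Eˣ) : E) * (((μ (cyc m g))⁻¹ : Eˣ) : E) * _
    rw [Units.mul_inv, one_mul]
  · rw [H20.bc_unrAt]
    refine ((hmem p).1 ?_).2.2
    rcases (Nat.Prime.dvd_mul hp).1 hpd with h | h
    · rcases (Nat.Prime.dvd_mul hp).1 (hp.dvd_of_dvd_pow h) with h | h
      · by_contra hpS
        refine hL.ram p hp h fun g hg i j => ?_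
        obtain ⟨P, hP, hpP, hg⟩ := hg
        rw [hu₁ p hp (by
          rintro rfl
          exact (Nat.not_even_iff_odd.2 hL.odd) (even_iff_two_dvd.2 h)) hpS P hP hpP g hg]
        simp
      · exact hRS p hp h
    · exact hmS p hp h

end

section

open Vale.Agent.P022 Vale.Agent.P022D.Dk Vale.Agent.P022D
open Vale.Agent.P022D.Top hiding COREn CORE MAIN TH END
open Vale.Agent.P022S.Top hiding COREn CORE MAIN finalS

/-- **the reduction to the scalar model** -/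
theorem finalS (hM : MAIN) (E : Type) [NontriviallyNormedField E] [NormedAlgebra ℚ_[2] E]
    [FiniteDimensional ℚ_[2] E] (r : GQ →* GL (Fin 2) E) (hc : Continuous r)
    (ho : St.OddRep r) (hi : St.AbsIrr r) (hS : {p : ℕ | p.Prime ∧ ¬ St.UnrAt r p}.Finite)
    (k : Type) [Field k] [CharP k 2] (ρ : GQ →* GL (Fin 2) k) (hr : St.IsRes r ρ)
    (h1 : ∀ g, (ρ g : Matrix (Fin 2) (Fin 2) k).trace = 0) (h2 : Tw2 r) : St.Q1Concl r := by
  refine St.q1Concl r ?_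
  have ho' : OddRep r := ho
  have hS' : {p : ℕ | p.Prime ∧ ¬ UnrAt r p}.Finite := hS
  haveI : IsUltrametricDist E := IsUltrametricDist.of_normedAlgebra ℚ_[2]
  haveI : CharZero E := charZero_of_injective_algebraMap (algebraMap ℚ_[2] E).injective
  obtain ⟨O, π, hO, ht⟩ := hr
  have hI := ir_of ho' hi
  have t0 : ∀ g, ‖(r g : Matrix (Fin 2) (Fin 2) E).trace‖ < 1 := fun g => by
    obtain ⟨t, d, a, -, b, -⟩ := ht g
    rw [← a]
    exact P022E.Br.small_of O hO π t (b.trans (h1 g))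
  obtain ⟨P, hP⟩ := latt hc hI
  obtain ⟨E', i1, i2, i3, i4, i5, i6, Q, hQ, lo⟩ := tri hP fun g => by rw [cj_trace]; exact t0 g
  have c1 := cj_cont Q (bc_cont E' (cj_cont P hc))
  obtain ⟨E'', j1, j2, j3, j4, j5, j6, R, hR⟩ := sca_lo c1 (((hI.cj P).bc E').cj Q) hQ
    (fun g => by rw [cj_trace, H20.bc_trace, norm_algebraMap', cj_trace]; exact t0 g) lo
  have e : cj P r = cj P (bc E r) := congrArg _ (MonoidHom.ext fun g => Units.ext (by
    rw [H20.bc_coe]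
    rfl))
  refine q1_desc r P (e ▸ q1_desc _ Q (q1_desc _ R (hM E'' _ (cj_cont R (bc_cont E'' c1))
    ((cj_odd _ _).2 (H20.bc_odd.2 ((cj_odd _ _).2 (H20.bc_odd.2 ((cj_odd _ _).2 ho'))))) ?_ hR ?_)))
  · simp only [cj_unrAt, H20.bc_unrAt]
    exact hS'
  · simpa only [Tw2, cj_unrAt, H20.bc_unrAt] using h2

end

open Vale.Agent.P022
open Vale.Agent.P027M.S (mx Inert)
open Vale.Agent.P022D.End Vale.Agent.P022D.Dk
open Vale.Agent.P022D.Top hiding COREn CORE MAIN TH END Su exSu ioW ioW_inj ioW_smul core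
open Vale.Agent.P022D.V (Co)
open Vale.Agent.P022E.Loc (Pl)
open Vale.Agent.P022E.Fm (Su)
open Vale.Agent.P022E.GW (H1)
open Vale.Agent.P022G.Top (dU intg_tr intg_dt intg_one)
open Vale.Agent.P022S.Top hiding COREn CORE MAIN MID core core0

/-- the theorem for the fixed data -/
def MID : Prop := ∀ (E : Type) [NontriviallyNormedField E] [IsUltrametricDist E]
  [NormedAlgebra ℚ_[2] E] [FiniteDimensional ℚ_[2] E] [Co (Ob E)] (r : GQ →* GL (Fin 2) E)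
  (U : Su (Ob E) (ResidueField (Ob E))) (X : Finset ℕ) (as N : ℕ) [NeZero (N ^ 2)], Fx U X as →
  (∀ g, ((U.L.r g).trace : E) = (r g : Matrix (Fin 2) (Fin 2) E).trace) →
  (∀ g, ((U.L.r g).det : E) = (r g : Matrix (Fin 2) (Fin 2) E).det) →
  2 ≤ (U.L.C \ X).card → N = ∏ l ∈ U.L.C \ X, l → LimR (N ^ 2) r

variable {E : Type} [NontriviallyNormedField E] [IsUltrametricDist E]
  [NormedAlgebra ℚ_[2] E] [FiniteDimensional ℚ_[2] E]

/-- the theorem over a field with enough roots of unity -/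
theorem core0 (hL : MID) {R N₀ : ℕ} [NeZero R] [NeZero N₀] {r : GQ →* GL (Fin 2) E}
    {S X : Finset ℕ} {ω : (ZMod R)ˣ →* Eˣ} {i as : ℕ} (hc : Continuous r)
    (ho : OddRep r) (hM : Sca r) (hd : DetOne r) (hS : ∀ l ∈ S, l.Prime ∧ l ≠ 2)
    (s2 : 2 ≤ S.card) (hR : R = ∏ l ∈ S, l) (hu : ∀ p : ℕ, p.Prime → p ≠ 2 → p ∉ S → UnrAt r p)
    (hi : 1 ≤ i) (hW : DetW r R ω i)
    (hX : ∀ a ∈ X, a.Prime ∧ a ∉ insert 0 (insert 2 S) ∧ a % 8 = 1) (mem : as ∈ X)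
    (mv : ∀ φ : GQ, IsFrob as φ →
      (∃ z : Qb, z ^ 4 = 2 ∧ φ z ≠ z) ∧ ∃ z : Qb, z ^ 8 = -4 ∧ φ z ≠ z)
    (b1 : 3 * S.card + 10 ≤ X.card) {k : ℕ} {g : Fin k → GQ} (b2 : 2 * k ≤ X.card)
    (hg : ∀ c ∈ H1 (1 : GQ →* GL (Fin 2) (ResidueField (Ob E))) (insert 0 (insert 2 S)) ⊤,
      (∀ i, c (g i) = 0) → c = 0)
    {ζ w y : E} (hζ : IsPrimitiveRoot ζ (R * ∏ a ∈ X, a)) (hw : IsPrimitiveRoot w 3)
    (hy : y * y = -1) : LimR ((N₀ * R) ^ 2) r := by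
  classical
  obtain ⟨co⟩ := P022D.V.emb E (Ob E) fun x => mem_Ob
  have x2 : ∀ a ∈ X, a ≠ 2 := fun a ha e =>
    (hX a ha).2.1 (e ▸ Finset.mem_insert_of_mem (Finset.mem_insert_self _ _))
  have xS : ∀ a ∈ X, a ∉ S := fun a ha e =>
    (hX a ha).2.1 (Finset.mem_insert_of_mem (Finset.mem_insert_of_mem e))
  obtain ⟨U, h0, hU, hU', hϖ, hC, hH, hr, hred, l0, -, hom⟩ := exSu hc ho hM hd hS hR hu hi hW
    (A := X) (fun a ha => ⟨(hX a ha).1, x2 a ha, xS a ha⟩) (by omega) hζ hw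
  have eT0 : U.S.T = insert 0 (insert 2 (S ∪ X)) := by
    rw [hU.ok.hT, hU.ok.W0, hC, Finset.empty_union]
  have eT : U.S.T \ X = insert 0 (insert 2 S) := by
    rw [eT0, ← Finset.insert_union, ← Finset.insert_union,
      Finset.union_sdiff_cancel_right (Finset.disjoint_right.2 fun a ha => (hX a ha).2.1)]
  have eS : U.L.C \ X = S := by
    rw [hC, Finset.union_sdiff_cancel_right (Finset.disjoint_right.2 xS)]
  have sub : X ⊆ U.L.C := hC ▸ Finset.subset_union_right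
  have h1 := Finset.mem_union_right U.L.W (sub mem)
  have fr := mv _ ⟨U.L.P as, (hU.ok.hP as h1).1, (hU.ok.hP as h1).2, (hU.ok.tm as h1).frob⟩
  have y1 : ‖y‖ = 1 := norm_root (n := 4) (by norm_num) (by
    rw [show y ^ 4 = (y * y) * (y * y) by ring, hy]; ring)
  haveI : NeZero (R ^ 2) := ⟨pow_ne_zero _ (NeZero.ne R)⟩
  refine P022D.Fm.Out.raise (pow_dvd_pow_of_dvd (dvd_mul_left R N₀) 2) (hL E r U X as R
    ⟨hU, hϖ, l0, okG_of hU.ok hH fun g => by rw [hr, hred]; exact hM.red hd g, hH, ?_,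
      fun l hl h P hP hl' s hs => ?_, sub, eS ▸ b1, fun a ha => (hX a ha).2.2, mem, fr.1, fr.2,
      ⟨k, g, b2, eT ▸ hg⟩, ⟨⟨y, mem_Ob.2 y1.le⟩, Subtype.ext hy⟩, fun s2 _ => hU' (eS ▸ s2),
      fun a b e => ?_⟩
    (hr ▸ intg_tr) (hr ▸ intg_dt) (eS ▸ s2) (eS ▸ hR))
  · obtain ⟨a, b, e⟩ := hM.irr
    refine ⟨a, b, fun z => e ?_⟩
    have := congrArg (Ob E).subtype z
    rw [hr, RingHom.map_det, map_sub, map_mul, map_mul, map_zero] at this
    exact this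
  · rw [hr, intg_one]
    refine hu l hl (fun e => ?_) (fun e => ?_) P hP hl' s hs
    · exact h.elim (fun h => h (e ▸ eT0 ▸ Finset.mem_insert_of_mem (Finset.mem_insert_self _ _)))
        fun h => x2 l h e
    · exact h.elim (fun h => h (eT0 ▸ Finset.mem_insert_of_mem (Finset.mem_insert_of_mem
        (Finset.mem_union_left _ e)))) fun h => xS l h e
  · rw [eS, ← hR] at e
    rw [hom]
    exact Subtype.ext (congrArg (MulChar.ofUnitHom ω) ((ZMod.natCast_eq_natCast_iff _ _ _).2 e))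

/-- **CORE** -/
theorem core (hL : MID) : CORE := by
  intro R N₀ _ _
  refine ⟨1, one_pos, ?_⟩
  intro E _ _ _ _ r S ω i hc ho hM hd hS s2 hR hu hv hi hW _
  obtain ⟨k, g, hg⟩ := P022G.Tr.big ⊤ (insert 0 (insert 2 S))
  obtain ⟨X, as, hn, mem, hX, mv⟩ := exXS (insert 0 (insert 2 S))
    (max (3 * S.card + 10) (2 * k))
  have A0 : ∏ a ∈ X, a ≠ 0 := Finset.prod_ne_zero_iff.2 fun a ha => (hX a ha).1.ne_zero
  have n0 := Nat.pos_of_ne_zero (mul_ne_zero (NeZero.ne R) A0)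
  generalize hm : R * ∏ a ∈ X, a = m at n0
  obtain ⟨E', i1, i2, i3, i4, i5, i6, hp⟩ := ext_split E (Polynomial.cyclotomic (m * 12) E)
  haveI : CharZero E' := charZero_of_injective_algebraMap (algebraMap ℚ_[2] E').injective
  have m0 : 0 < m * 12 := by omega
  rw [Polynomial.map_cyclotomic] at hp
  obtain ⟨ζ, hζ⟩ := hp.exists_eval_eq_zero (by
    rw [Polynomial.degree_cyclotomic]
    exact_mod_cast (Nat.totient_pos.2 m0).ne')
  haveI : NeZero ((m * 12 : ℕ) : E') := ⟨by exact_mod_cast m0.ne'⟩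
  have hζ' : IsPrimitiveRoot ζ (m * 12) := Polynomial.isRoot_cyclotomic_iff.1 hζ
  have h4 : IsPrimitiveRoot (ζ ^ (m * 3)) 4 := hζ'.pow m0 (by ring)
  have h2 : IsPrimitiveRoot ((ζ ^ (m * 3)) ^ 2) 2 := h4.pow (by norm_num) rfl
  have h := core0 (N₀ := N₀) hL (ω := bcc E' ω) (bc_cont E' hc) (H20.bc_odd.2 ho) (hM.ext E')
    (detOne_bc E' hd) hS s2 hR (fun p a b c => H20.bc_unrAt.2 (hu p a b c)) hi
    (fun ε hε => (hW ε hε).imp fun j hj g a u h1 h2 => by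
      have := hj g a u h1 h2
      rw [← norm_algebraMap' E', map_sub, map_mul, map_pow, map_natCast] at this
      rw [H20.bc_det, bcc_coe]
      exact this) hX mem mv ((le_max_left _ _).trans hn) ((le_max_right _ _).trans hn)
    (hg _ 1 MonoidHom.ker_one ((Set.eq_univ_of_forall fun _ => rfl : {g : GQ |
      (1 : GQ →* GL (Fin 2) (ResidueField (Ob E'))) g = 1} = Set.univ) ▸ isOpen_univ))
    (ζ := ζ ^ 12) (w := ζ ^ (m * 4)) (hm ▸ hζ'.pow m0 (mul_comm _ _)) (hζ'.pow m0 (by ring))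
    (y := ζ ^ (m * 3)) (by rw [← sq]; exact h2.eq_neg_one_of_two_right)
  intro φ hφ ε hε
  refine (h φ hφ ε hε).imp fun j hj x hx => ?_
  have := hj x hx
  rwa [lift_bc, norm_algebraMap'] at this

theorem finB (hC : MID) (E : Type) [NontriviallyNormedField E] [NormedAlgebra ℚ_[2] E]
    [FiniteDimensional ℚ_[2] E] (r : GQ →* GL (Fin 2) E) (hc : Continuous r)
    (ho : St.OddRep r) (hi : St.AbsIrr r)
    (hS : {p : ℕ | p.Prime ∧ ¬ St.UnrAt r p}.Finite)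
    (k : Type) [Field k] [CharP k 2] (ρ : GQ →* GL (Fin 2) k) (hr : St.IsRes r ρ)
    (h1 : ∀ g, (ρ g : Matrix (Fin 2) (Fin 2) k).trace = 0)
    (h2 : ∃ p q : ℕ, p ≠ q ∧ (p ≠ 2 ∧ p.Prime ∧ ¬ St.UnrAt r p) ∧ q ≠ 2 ∧ q.Prime ∧
      ¬ St.UnrAt r q) : St.Q1Concl r :=
  finalS (endS thS (core hC)) E r hc ho hi hS k ρ hr h1 h2

end Vale.Agent.P022S.Fb
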