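import Vale.Agent.P022S.Top.Core
import Vale.Agent.P022S.Rows2
import Vale.Agent.P022S.Wx.All
import Vale.Agent.P022S.Top.Fin
import Vale.Agent.P022S.Ps.Main

/-!
P022S: the theorem for the fixed data from the Galois side and the forms side.
-/

set_option linter.all false

open Matrix NumberField IsLocalRing

noncomputable section

namespace Vale.Agent.P022S.Top

open Vale.Agent.P022
open Vale.Agent.P022D.V (Co)
open Vale.Agent.P022D.Core (Coef)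
open Vale.Agent.P022D.Rep (XJ)
open Vale.Agent.P022E.Fm (Su L0)
open Vale.Agent.P022G (subL resJ Tr)
open Vale.Agent.P022G.Ps (inc)
open Vale.Agent.P022S.Ps (Yy)
open Vale.Agent.P022S.Wx

theorem Fx.cx {O F : Type} [CommRing O] [IsLocalRing O] [Co O] [Field F] {U : Su O F}
    {X : Finset ℕ} {as : ℕ} (h : Fx U X as) : Cx (gS U.S) U.L X as :=
  ⟨h.okG, fun _ => rfl, h.ok.ok.W0, h.irr, h.unr, h.sub, by have := h.big; omega, h.one, h.mem,
    h.mv1, h.mv2⟩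

theorem Fx.ux {O F : Type} [CommRing O] [IsLocalRing O] [Co O] [Field F] {U : Su O F}
    {X : Finset ℕ} {as : ℕ} (h : Fx U X as) : Ux U X :=
  ⟨h.ok, h.sub, fun a ha s ⟨P, h1, h2, h3⟩ => h.unr a
    (h.ok.ok.pr a (Finset.mem_union_right _ (h.sub ha))).1 (Or.inr ha) P h1 h2 s h3, h.omX⟩

/-- the forms side outside `X` -/
def HXA : Prop := ∀ (O F : Type) [CommRing O] [IsDomain O] [IsDiscreteValuationRing O] [Coef O]
  [Co O] [Field F] [Finite F] [CharP F 2] (U : Su O F) (X : Finset ℕ)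
  [∀ l : U.L.C, Fact l.1.Prime] (Cc : ∀ l : U.L.C, P022D.Rep.Ch (ZMod l.1) F), Ux U X →
  U.IsCh Cc → ∀ (P0 : L0 U) (S' : P022D.R.Dat O F), S'.red = U.S.red → S'.T = U.S.T \ X →
  HX U X Cc P0 S'

/-- the transfer -/
theorem trZ {O F : Type} [CommRing O] [IsDomain O] [IsDiscreteValuationRing O] [Coef O]
    [Co O] [Field F] [Finite F] [CharP F 2] {U : Su O F} {X : Finset ℕ}
    [∀ l : U.L.C, Fact l.1.Prime] (Cc : ∀ l : U.L.C, P022D.Rep.Ch (ZMod l.1) F) (P0 : L0 U)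
    (J : Finset U.L.C) (hJ : ∀ a ∈ J, (a : ℕ) ∉ X) :
    Tr O (Yy P0 (inc (XJ U.bn Cc J))) (P0.Yb (iJX U X Cc (resJ X J)).1) := by
  have e : Wx.up U X (resJ X J) = J := by
    ext l
    simp only [Wx.up, resJ, Finset.mem_filter, Finset.mem_univ, true_and]
    exact ⟨fun ⟨_, h⟩ => h, fun h => ⟨Finset.mem_sdiff.2 ⟨l.2, hJ l h⟩, h⟩⟩
  change Tr O _ (P0.Yb (XJ U.bn Cc (Wx.up U X (resJ X J))))
  rw [e]
  exact fun w => ⟨{w}, fun p hp => hp w (Finset.mem_singleton_self _)⟩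

/-- **MID** -/
theorem mid (hL : L2X) (hH : HXA) (hO : OUTX) : MID := by
  intro E _ _ _ _ _ r U X as N _ h htr hdt hN
  haveI : ∀ l : U.L.C, Fact l.1.Prime :=
    fun l => ⟨(h.ok.ok.pr l.1 (Finset.mem_union_right _ l.2)).1⟩
  obtain ⟨Cc, c1⟩ := P022E.Fm.chCGs h.ok
  obtain ⟨P0⟩ := Ps.ex_l0 h.ok
  obtain ⟨y, hy⟩ := h.im
  have h0 : U.S.l0 ∉ X := fun k =>
    (h.ok.ok.pr _ (Finset.mem_union_right _ (h.sub k))).1.ne_zero h.l0
  exact hO E r U X N h.ux htr hdt hN P0 (hL _ _ U.ϖ (gS U.S) U.L X as h.pi h.cx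
    U.S _ _ _ _ _ _ _ rfl (Ps.hdS h.ok c1 hy P0)
    (P022G.Top.dS U.S X h0) _ _ _ _ _ _ _ rfl (hH _ _ U X Cc h.ux c1 P0 _ rfl rfl)
    (trZ Cc P0))

theorem midC (hL : L2X) : MID :=
  mid hL (fun _ _ _ _ _ _ _ _ _ _ _ _ _ _ h1 h2 P0 _ _ h3 => hdXC h1 h2 P0 h3) outxC

/-- **the theorem from the Galois side** -/
theorem finL (hL : L2X) (E : Type) [NontriviallyNormedField E] [NormedAlgebra ℚ_[2] E]
    [FiniteDimensional ℚ_[2] E] (r : GQ →* GL (Fin 2) E) (hc : Continuous r)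
    (ho : St.OddRep r) (hi : St.AbsIrr r) (hS : {p : ℕ | p.Prime ∧ ¬ St.UnrAt r p}.Finite)
    (k : Type) [Field k] [CharP k 2] (ρ : GQ →* GL (Fin 2) k) (hr : St.IsRes r ρ)
    (h1 : ∀ g, (ρ g : Matrix (Fin 2) (Fin 2) k).trace = 0) : St.Q1Concl r :=
  finS (core (midC hL)) E r hc ho hi hS k ρ hr h1

end Vale.Agent.P022S.Top
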