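import Vale.Agent.P022S.Top.Core
import Vale.Agent.P022S.Top.Fin
import Vale.Agent.P022S.Rw.L2xH73
import Vale.Agent.P022S.Wx.All

/-!
P022S: the theorem for the fixed data from the Galois side and the forms side.
-/

set_option linter.all false

open Matrix NumberField IsLocalRing

noncomputable section

namespace Vale.Agent.P022S.H73

open Vale.Agent.P022 Vale.Agent.P022S.Top
open Vale.Agent.P022D.V (Co)
open Vale.Agent.P022E.Fm (Su L0)

theorem cx {O F : Type} [CommRing O] [IsLocalRing O] [Co O] [Field F] {U : Su O F}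
    {X : Finset ℕ} {as : ℕ} (h : Fx U X as) : Cx (gS U.S) U.L X as :=
  ⟨h.okG, fun _ => rfl, h.ok.ok.W0, h.irr, h.unr, h.sub, by have := h.big; omega, h.one, h.mem,
    h.mv1, h.mv2⟩

theorem ux {O F : Type} [CommRing O] [IsLocalRing O] [Co O] [Field F] {U : Su O F}
    {X : Finset ℕ} {as : ℕ} (h : Fx U X as) : Wx.Ux U X :=
  ⟨h.ok, h.sub, fun a ha s ⟨P, h1, h2, h3⟩ => h.unr a
    (h.ok.ok.pr a (Finset.mem_union_right _ (h.sub ha))).1 (Or.inr ha) P h1 h2 s h3, h.omX⟩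

/-- **MID** -/
theorem midC (hL : L2X) : MID := by
  intro E _ _ _ _ _ r U X as N _ h htr hdt hN
  haveI : ∀ l : U.L.C, Fact l.1.Prime :=
    fun l => ⟨(h.ok.ok.pr l.1 (Finset.mem_union_right _ l.2)).1⟩
  obtain ⟨Cc, P0, c1, c2⟩ := Ps.formsS h.ok h.im
  have h0 : U.S.l0 ∉ X := fun k =>
    (h.ok.ok.pr _ (Finset.mem_union_right _ (h.sub k))).1.ne_zero h.l0
  exact Wx.outxC E r U X N (ux h) htr hdt hN P0 (hL _ _ U.ϖ (gS U.S) U.L X as h.pi (cx h)
    U.S _ _ _ _ _ _ _ rfl c2 (P022G.Top.dS U.S X h0) _ _ _ _ _ _ _ rfl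
    (Wx.hdXC (ux h) c1 P0 rfl) fun J hJ => Wx.trX P0 hJ)

/-- the theorem from the Galois side -/
theorem finC (hL : L2X) (E : Type) [NontriviallyNormedField E] [NormedAlgebra ℚ_[2] E]
    [FiniteDimensional ℚ_[2] E] (r : GQ →* GL (Fin 2) E) (hc : Continuous r)
    (ho : St.OddRep r) (hi : St.AbsIrr r) (hS : {p : ℕ | p.Prime ∧ ¬ St.UnrAt r p}.Finite)
    (k : Type) [Field k] [CharP k 2] (ρ : GQ →* GL (Fin 2) k) (hr : St.IsRes r ρ)
    (h1 : ∀ g, (ρ g : Matrix (Fin 2) (Fin 2) k).trace = 0) : St.Q1Concl r :=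
  finS (core (midC hL)) E r hc ho hi hS k ρ hr h1

end Vale.Agent.P022S.H73
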