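import Vale.Agent.P022D.End.Cg
import Vale.Agent.P022D.Top.Setup

/-!
P022S: the top of the proof when the residual traces vanish (statements).
-/

set_option linter.all false

open Matrix NumberField

noncomputable section

namespace Vale.Agent.P022S.Top

open Vale.Agent.P022 Vale.Agent.P022.H790.CT Vale.Agent.P022D.Dk Vale.Agent.P022D.End
open Vale.Agent.P022D.Top hiding COREn CORE MAIN TH END

/-- two of the matrices have no common eigenvector -/
def Ir {E : Type} [Field E] (r : GQ →* GL (Fin 2) E) : Prop :=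
  ∃ g h, ((r g : Matrix (Fin 2) (Fin 2) E) * r h - (r h : Matrix (Fin 2) (Fin 2) E) * r g).det ≠ 0

/-- `r` is integral, absolutely irreducible, and scalar modulo the maximal ideal -/
structure Sca {E : Type} [NontriviallyNormedField E] (r : GQ →* GL (Fin 2) E) : Prop where
  int : ∀ g i j, ‖(r g : Matrix (Fin 2) (Fin 2) E) i j‖ ≤ 1
  up : ∀ g, ‖(r g : Matrix (Fin 2) (Fin 2) E) 0 1‖ < 1
  lo : ∀ g, ‖(r g : Matrix (Fin 2) (Fin 2) E) 1 0‖ < 1
  dg : ∀ g, ‖(r g : Matrix (Fin 2) (Fin 2) E) 0 0 - (r g : Matrix (Fin 2) (Fin 2) E) 1 1‖ < 1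
  irr : Ir r

/-- **TH**: the residual level, from Eisenstein series or theta series -/
def TH : Prop := ∀ (E : Type) [NontriviallyNormedField E] [NormedAlgebra ℚ_[2] E]
  [IsUltrametricDist E] [FiniteDimensional ℚ_[2] E] (r : GQ →* GL (Fin 2) E),
  Continuous r → {p : ℕ | p.Prime ∧ ¬ UnrAt r p}.Finite → Sca r → DetOne r →
  ∃ (N₀ : ℕ) (_ : NeZero N₀), Lev r N₀

/-- the theorem in fixed weight `i + 1` over fields with a primitive `n`-th root of unity; `S` is
a set of odd primes with product `R` -/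
def COREn (R N₀ n : ℕ) [NeZero R] [NeZero N₀] : Prop :=
  ∀ (E : Type) [NontriviallyNormedField E] [NormedAlgebra ℚ_[2] E]
  [IsUltrametricDist E] [FiniteDimensional ℚ_[2] E] (r : GQ →* GL (Fin 2) E)
  (S : Finset ℕ) (ω : (ZMod R)ˣ →* Eˣ) (i : ℕ),
  Continuous r → OddRep r → Sca r → DetOne r → (∀ l ∈ S, l.Prime ∧ l ≠ 2) →
  R = ∏ l ∈ S, l → (∀ p : ℕ, p.Prime → p ≠ 2 → p ∉ S → UnrAt r p) → Lev r N₀ → 1 ≤ i →
  DetW r R ω i → (∃ ζ : E, IsPrimitiveRoot ζ n) → LimR ((N₀ * R) ^ 2) r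

/-- **CORE** -/
def CORE : Prop := ∀ (R N₀ : ℕ) [NeZero R] [NeZero N₀], ∃ n : ℕ, 0 < n ∧ COREn R N₀ n

/-- the theorem for balanced integral models -/
def MAIN : Prop := ∀ (E : Type) [NontriviallyNormedField E] [NormedAlgebra ℚ_[2] E]
  [IsUltrametricDist E] [FiniteDimensional ℚ_[2] E] (r : GQ →* GL (Fin 2) E),
  Continuous r → OddRep r → {p : ℕ | p.Prime ∧ ¬ UnrAt r p}.Finite → Sca r → Q1Concl E r

section

theorem Ir.tw {E : Type} [NontriviallyNormedField E] {χ : GQ →* Eˣ} {r : GQ →* GL (Fin 2) E}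
    (h : Ir r) : Ir (tws χ r) := by
  obtain ⟨g, k, h⟩ := h
  refine ⟨g, k, fun e => h ?_⟩
  have h0 : ((χ g : E) * χ k) ^ 2 ≠ 0 := pow_ne_zero _ (mul_ne_zero (χ g).ne_zero (χ k).ne_zero)
  refine (mul_eq_zero.1 ?_).resolve_left h0
  rw [← e]
  simp only [Matrix.det_fin_two, Matrix.sub_apply, Matrix.mul_apply, Fin.sum_univ_two, tws_ent]
  ring

theorem Ir.bc {E : Type} [Field E] (E' : Type) [Field E'] [Algebra E E']
    {r : GQ →* GL (Fin 2) E} (h : Ir r) : Ir (bc E' r) := by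
  obtain ⟨g, k, h⟩ := h
  refine ⟨g, k, fun e => h ((map_eq_zero (algebraMap E E')).1 ?_)⟩
  rw [← e]
  simp only [Matrix.det_fin_two, Matrix.sub_apply, Matrix.mul_apply, Fin.sum_univ_two, H20.bc_coe,
    Matrix.map_apply, map_sub, map_mul, map_add]

theorem Ir.cj {E : Type} [Field E] (P : GL (Fin 2) E) {r : GQ →* GL (Fin 2) E} (h : Ir r) :
    Ir (cj P r) := by
  obtain ⟨g, k, h⟩ := h
  refine ⟨g, k, ?_⟩
  rw [← Units.val_mul, ← Units.val_mul, ← map_mul, ← map_mul, cj_apply, cj_apply, Units.val_mul,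
    Units.val_mul, Units.val_mul, Units.val_mul, ← sub_mul, ← mul_sub, Matrix.det_units_conj',
    map_mul, map_mul]
  exact h

theorem Ir.up {E : Type} [Field E] {r : GQ →* GL (Fin 2) E} (h : Ir r) :
    ∃ g, (r g : Matrix (Fin 2) (Fin 2) E) 0 1 ≠ 0 := by
  obtain ⟨g, k, h⟩ := h
  by_contra hn
  push Not at hn
  refine h ?_
  simp only [Matrix.det_fin_two, Matrix.sub_apply, Matrix.mul_apply, Fin.sum_univ_two, hn]
  ring

theorem Ir.lo {E : Type} [Field E] {r : GQ →* GL (Fin 2) E} (h : Ir r) :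
    ∃ g, (r g : Matrix (Fin 2) (Fin 2) E) 1 0 ≠ 0 := by
  obtain ⟨g, k, h⟩ := h
  by_contra hn
  push Not at hn
  refine h ?_
  simp only [Matrix.det_fin_two, Matrix.sub_apply, Matrix.mul_apply, Fin.sum_univ_two, hn]
  ring

variable {E : Type} [NontriviallyNormedField E] {χ : GQ →* Eˣ} {r : GQ →* GL (Fin 2) E}

theorem Sca.tw (hn : ∀ g, ‖(χ g : E)‖ = 1) (h : Sca r) : Sca (tws χ r) := by
  have e : ∀ g i j, ‖(tws χ r g : Matrix (Fin 2) (Fin 2) E) i j‖ =
      ‖(r g : Matrix (Fin 2) (Fin 2) E) i j‖ := fun g i j => by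
    rw [tws_ent, norm_mul, hn, one_mul]
  refine ⟨fun g i j => e g i j ▸ h.int g i j, fun g => e g 0 1 ▸ h.up g,
    fun g => e g 1 0 ▸ h.lo g, fun g => ?_, h.irr.tw⟩
  rw [tws_ent, tws_ent, ← mul_sub, norm_mul, hn, one_mul]
  exact h.dg g

variable (E' : Type) [NontriviallyNormedField E'] [NormedAlgebra E E']

theorem Sca.ext (h : Sca r) : Sca (bc E' r) := by
  refine ⟨fun g i j => ?_, fun g => ?_, fun g => ?_, fun g => ?_, h.irr.bc E'⟩
  · rw [bc_ent, norm_algebraMap']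
    exact h.int g i j
  · rw [bc_ent, norm_algebraMap']
    exact h.up g
  · rw [bc_ent, norm_algebraMap']
    exact h.lo g
  · rw [bc_ent, bc_ent, ← map_sub, norm_algebraMap']
    exact h.dg g

end

end Vale.Agent.P022S.Top
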