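import Vale.Agent.P022S.Top.Th
import Vale.Agent.P022S.Top.Dum
import Vale.Agent.P022S.Fp.Base
import Vale.Agent.P022S.Loc.Defs
import Vale.Agent.P022G.Top.Gal
import Vale.Agent.P022D.Loc.Expl

/-!
P022S: the fixed data of the forms side and of the Galois side.
-/

set_option linter.all false

open Matrix NumberField IsLocalRing

noncomputable section

namespace Vale.Agent.P022S.Top

open Vale.Agent.P022 Vale.Agent.P022D Vale.Agent.P022D.R
open Vale.Agent.P027M.S (mx)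
open Vale.Agent.P027M.M (ze)
open Vale.Agent.P022D.Sel (M2)
open Vale.Agent.P022D.Top hiding COREn CORE MAIN TH END Su
open Vale.Agent.P022D.Th (lt_add lt_sub lt_mul two_lt lt_of_sq)
open Vale.Agent.P022E.Loc (Pl Tm)
open Vale.Agent.P022E.Fm (Su)
open Vale.Agent.P022G.Top (dS dL dU sub_drop rbO rbO_one intg_tr intg_dt intg_one)

theorem okS_drop {O F : Type} [CommRing O] [Field F] [IsLocalRing O] {S : Dat O F} {L : Pl O}
    {A : Finset ℕ} (H : L.OkS S) (hA : A ⊆ L.C) (h : S.l0 ∉ A) : (dL L A).OkS (dS S A h) := by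
  refine ⟨H.ker, ?_, H.W0, fun l hl => H.pr l (sub_drop hl), fun l hl => H.hP l (sub_drop hl),
    H.h2, H.cj, fun l hl => H.tm l (sub_drop hl), H.tr0, H.dt1, H.cont, H.odd⟩
  change S.T \ A = insert 0 (insert 2 (L.W ∪ L.C \ A))
  have n0 : 0 ∉ A := fun k => (H.pr 0 (Finset.mem_union_right _ (hA k))).1.ne_zero rfl
  have n2 : 2 ∉ A := fun k => (H.pr 2 (Finset.mem_union_right _ (hA k))).2 rfl
  rw [H.hT, Finset.insert_sdiff_of_notMem _ n0, Finset.insert_sdiff_of_notMem _ n2,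
    Finset.union_sdiff_distrib, Finset.sdiff_eq_self_of_disjoint (H.dj.mono_right hA)]

variable {E : Type} [NontriviallyNormedField E] [IsUltrametricDist E]
  [NormedAlgebra ℚ_[2] E] [FiniteDimensional ℚ_[2] E]

/-- the reduction is trivial -/
theorem Sca.one {r : GQ →* GL (Fin 2) E} (h : Sca r) (hd : DetOne r) (g : GQ) (i j : Fin 2) :
    ‖((r g : Matrix (Fin 2) (Fin 2) E) - 1) i j‖ < 1 := by
  have h1 := h.tr g
  have h3 := hd g
  rw [Matrix.trace_fin_two] at h1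
  rw [Matrix.det_fin_two] at h3
  have h4 := lt_add h3 (lt_mul (h.up g) (h.int g 1 0))
  rw [show ∀ a b : E, a - b - 1 + b = a - 1 from fun a b => by ring] at h4
  have key : ∀ a d : E, ‖a‖ ≤ 1 → ‖a + d‖ < 1 → ‖a * d - 1‖ < 1 → ‖a - 1‖ < 1 := by
    intro a d ha e1 e2
    refine lt_of_sq ?_
    rw [show (a - 1) ^ 2 = (a + d) * a - (a * d - 1) - 2 * a by ring]
    exact lt_sub (lt_sub (lt_mul e1 ha) e2) (lt_mul two_lt ha)
  fin_cases i <;> fin_cases j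
  · simpa using key _ _ (h.int g 0 0) h1 h4
  · simpa using h.up g
  · simpa using h.lo g
  · simpa using key _ _ (h.int g 1 1) (by rwa [add_comm]) (by rwa [mul_comm])

theorem Sca.red {r : GQ →* GL (Fin 2) E} (h : Sca r) (hd : DetOne r) (g : GQ) :
    (intg r h.int g).map (residue (Ob E)) = 1 :=
  congrArg Units.val ((rbO_one (h := h.int)).2 (h.one hd g))

variable [V.Co (Ob E)]

theorem mkSu {R : ℕ} [NeZero R] {r : GQ →* GL (Fin 2) E}
    {ω : (ZMod R)ˣ →* Eˣ} {i : ℕ} {D : Dat (Ob E) (ResidueField (Ob E))} {L : Pl (Ob E)}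
    {ϖ : Ob E} (hϖ : Irreducible ϖ) (ok : L.OkS D)
    (dt : ∀ g, ((L.r g).det : E) = (r g : Matrix (Fin 2) (Fin 2) E).det)
    (hunr : ∀ l : ℕ, l.Prime → l ∉ D.T → ∀ g, G.Inert l g → L.r g = 1)
    (hR : R ∣ ∏ l ∈ L.C, l) (c2 : ∀ l : ℕ, ∃ p ∈ L.C, p ≠ l) (hi : 1 ≤ i) (hW : DetW r R ω i)
    {z : Ob E} (hz : V.Co.j z = ze (1 * ∏ l ∈ L.C, l) 1) :
    Su.OkS ⟨D, L, ϖ, i, 1, ∏ l ∈ L.C, l, 1, z, omO ω⟩ := by
  classical
  have hker := ok.ker
  have dv : ∀ {x : Ob E}, ϖ ∣ x ↔ x ∈ maximalIdeal (Ob E) := by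
    intro x
    rw [hϖ.maximalIdeal_eq, Ideal.mem_span_singleton]
  set N := 1 * ∏ l ∈ L.C, l with hNd
  have oN : Odd N := odd_one.mul (Finset.prod_induction _ Odd (fun _ _ => Odd.mul) odd_one
    fun l hl => (ok.pr l (Finset.mem_union_right _ hl)).1.odd_of_ne_two
      (ok.pr l (Finset.mem_union_right _ hl)).2)
  have N0 : N ≠ 0 := oN.pos.ne'
  have dR : R ∣ N := hR.mul_left _
  have hdet : ∀ j : ℕ, ∃ a : ℕ, ∀ (g : GQ) (x : ℕ), Nat.Coprime x N →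
      Fm.Cy (2 ^ a * N) g x → ϖ ^ j ∣ (L.r g).det - omO ω x * (x : Ob E) ^ i := fun j => by
    obtain ⟨a, ha⟩ := hW (‖(ϖ : E)‖ ^ j)
      (pow_pos (norm_pos_iff.2 fun e => hϖ.ne_zero (Subtype.ext e)) j)
    refine ⟨a, fun g x hx hg => dvd_Ob.2 ?_⟩
    have h1 := ha g x (ZMod.unitOfCoprime x (hx.coprime_dvd_right dR))
      (ZMod.coe_unitOfCoprime _ _) fun z hz => hg z (by
        obtain ⟨m, hm⟩ := dR
        rw [hm, ← mul_assoc, pow_mul, hz, one_pow])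
    rw [← MulChar.ofUnitHom_coe, ZMod.coe_unitOfCoprime, ← dt] at h1
    rw [SubmonoidClass.coe_pow, norm_pow]
    exact h1.le
  have homp : ∀ x x' : ℕ, x ≡ x' [MOD N] → omO ω x = omO ω x' := fun x x' h =>
    Subtype.ext (congrArg (MulChar.ofUnitHom ω)
      ((ZMod.natCast_eq_natCast_iff _ _ _).2 (h.of_dvd dR)))
  have hodd : ∀ x : ℕ, Odd x → Nat.Coprime x N → ϖ ∣ omO ω x - 1 := fun x ox hx => by
    obtain ⟨a, ha⟩ := hdet 1
    obtain ⟨g, hg⟩ := ex_cy (mul_ne_zero (pow_ne_zero a two_ne_zero) N0)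
      (Nat.Coprime.mul_right (Nat.Coprime.pow_right a (Nat.coprime_two_right.2 ox)) hx)
    have h1 := ha g x hx hg
    rw [pow_one] at h1
    have h2 : ϖ ∣ (L.r g).det - 1 := by
      rw [dv, ← hker, map_sub, map_one, ok.dt1, sub_self]
    have h3 : ϖ ∣ (x : Ob E) ^ i - 1 := by
      obtain ⟨m, hm⟩ := ox.pow (n := i)
      have h4 := congrArg (Nat.cast : ℕ → Ob E) hm
      push_cast at h4
      rw [h4, add_sub_cancel_right]
      exact (dv.2 (max_Ob.2 norm_two_lt)).mul_right _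
    have h4 := ((h2.sub h1).sub (h3.mul_left (omO ω x)))
    rwa [show (L.r g).det - 1 - ((L.r g).det - omO ω x * (x : Ob E) ^ i) -
      omO ω x * ((x : Ob E) ^ i - 1) = omO ω x - 1 by ring] at h4
  refine ⟨ok, ⟨hϖ.ne_zero, hϖ.not_isUnit, fun a ha => dv.2 ha⟩, hi, rfl, rfl, c2, hz,
    Subtype.ext ?_, fun x x' => Subtype.ext ?_, homp, hdet, hunr, ?_⟩
  · change MulChar.ofUnitHom ω ((1 : ℕ) : ZMod R) = 1
    rw [Nat.cast_one, map_one]
  · change MulChar.ofUnitHom ω ((x * x' : ℕ) : ZMod R) = _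
    rw [Nat.cast_mul, map_mul]
    rfl
  · change ∀ x : ℕ, Nat.Coprime x N → ϖ ∣ omO ω x - 1
    intro x hx
    rcases Nat.even_or_odd x with h | h
    · rw [homp x (x + N) (by simp [Nat.ModEq])]
      exact hodd _ (h.add_odd oN) (by simpa using hx)
    · exact hodd x h hx

/-- **the fixed data exist** -/
theorem exSu {R : ℕ} [NeZero R] {r : GQ →* GL (Fin 2) E} {S A : Finset ℕ}
    {ω : (ZMod R)ˣ →* Eˣ} {i : ℕ} (hc : Continuous r) (ho : OddRep r) (hM : Sca r) (hd : DetOne r)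
    (hS : ∀ l ∈ S, l.Prime ∧ l ≠ 2) (hR : R = ∏ l ∈ S, l)
    (hu : ∀ p : ℕ, p.Prime → p ≠ 2 → p ∉ S → UnrAt r p) (hi : 1 ≤ i) (hW : DetW r R ω i)
    (hA : ∀ a ∈ A, a.Prime ∧ a ≠ 2 ∧ a ∉ S) (h2 : 2 ≤ A.card) {ζ w : E}
    (hζ : IsPrimitiveRoot ζ (R * ∏ a ∈ A, a)) (hw : IsPrimitiveRoot w 3) :
    ∃ (U : Su (Ob E) (ResidueField (Ob E))) (h0 : U.S.l0 ∉ A), U.OkS ∧
      (2 ≤ S.card → (dU U A h0).OkS) ∧ Irreducible U.ϖ ∧ U.L.C = S ∪ A ∧ U.L.H = ⊤ ∧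
      U.L.r = intg r hM.int ∧ U.S.red = residue (Ob E) ∧ U.S.l0 = 0 ∧ U.i = i ∧
      U.om = omO ω := by
  classical
  let w0 : Ob E := ⟨w, mem_Ob.2 (norm_root (n := 3) (by norm_num) hw.pow_eq_one).le⟩
  have w3 : w0 ^ 3 = 1 := Subtype.ext hw.pow_eq_one
  have ww : w0 ^ 2 + w0 + 1 = 0 := by
    refine (mul_eq_zero.1 ?_).resolve_left
      (sub_ne_zero.2 fun e : w0 = 1 => hw.ne_one (by norm_num) (congrArg Subtype.val e))
    linear_combination w3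
  have hw' : IsPrimitiveRoot (residue (Ob E) w0) 3 := by
    haveI : Fact (Nat.Prime 3) := ⟨Nat.prime_three⟩
    have h1 : orderOf (residue (Ob E) w0) = 3 :=
      orderOf_eq_prime (by rw [← map_pow, w3, map_one]) fun e => by
        have := congrArg (residue (Ob E)) ww
        rw [map_add, map_add, map_pow, e, map_one, map_zero, one_pow, CharTwo.add_self_eq_zero,
          zero_add] at this
        exact one_ne_zero this
    exact h1 ▸ IsPrimitiveRoot.orderOf _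
  obtain ⟨rb, g0, g1, d1, d2, d3, d4⟩ := ex_dum hw'
  let D : Dat (Ob E) (ResidueField (Ob E)) := ⟨residue (Ob E), rb, insert 0 (insert 2 (S ∪ A)),
    g0, g1, 0, 0, residue_surjective, d1, d2, d3, d4, Finset.mem_insert_self _ _⟩
  have h0 : D.l0 ∉ A := fun k => (hA _ k).1.ne_zero rfl
  obtain ⟨c, hcj⟩ := H443.exists_isConj
  obtain ⟨ϖ, hϖ⟩ := IsDiscreteValuationRing.exists_irreducible (Ob E)
  have hSA : ∀ l ∈ S ∪ A, l.Prime ∧ l ≠ 2 := fun l hl =>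
    (Finset.mem_union.1 hl).elim (hS l) fun k => ⟨(hA l k).1, (hA l k).2.1⟩
  have loc : ∀ l : ℕ, ∃ (P : Ideal (𝓞 Qb)) (τ φ : GQ), (l = 2 → P = Loc2.PP 2) ∧
      (l.Prime → l ≠ 2 → (P.IsPrime ∧ (l : 𝓞 Qb) ∈ P) ∧ Tm l P τ φ) := fun l => by
    by_cases h : l.Prime ∧ l ≠ 2
    · obtain ⟨φ, P, p1, p2, -⟩ := H20.exists_isFrob h.1
      obtain ⟨τ, φ, t⟩ := P022D.Loc.Expl.tm h.1 h.2 p1 p2
      exact ⟨P, τ, φ, fun e => absurd e h.2, fun _ _ => ⟨⟨p1, p2⟩, t.tau, t.frob, t.tame⟩⟩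
    · exact ⟨Loc2.PP 2, 1, 1, fun _ => rfl, fun a b => absurd ⟨a, b⟩ h⟩
  choose P τ φ l2 lp using loc
  let L : Pl (Ob E) := ⟨⊤, fun _ => ⊤, fun _ => 1, ∅, S ∪ A, P, c, τ, φ, fun _ => 1,
    intg r hM.int, fun _ => 0⟩
  have eu : L.W ∪ L.C = S ∪ A := Finset.empty_union _
  have ok : L.OkS D := ⟨fun c => residue_eq_zero_iff c, by rw [eu], rfl, by rw [eu]; exact hSA,
    fun l hl => (lp l (hSA l (eu ▸ hl)).1 (hSA l (eu ▸ hl)).2).1, l2 2 rfl, hcj,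
    fun l hl => (lp l (hSA l (eu ▸ hl)).1 (hSA l (eu ▸ hl)).2).2,
    fun g => res_Ob.2 ((congrArg norm (intg_tr (h := hM.int) g)).trans_lt (hM.tr g)),
    fun g => by
      change residue (Ob E) (intg r hM.int g).det = 1
      rw [RingHom.map_det, RingHom.mapMatrix_apply, hM.red hd, Matrix.det_one],
    intg_open hc hM.int, Subtype.ext (by
      change (((intg r hM.int c).det : Ob E) : E) = _
      rw [intg_dt, ho c hcj]; rfl)⟩
  have hunr : ∀ l : ℕ, l.Prime → l ≠ 2 → l ∉ S → ∀ g, G.Inert l g → L.r g = 1 := by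
    rintro l hl h2 hT g ⟨P, hP, hlP, hg⟩
    exact (intg_one (h := hM.int)).2 (hu l hl h2 hT P hP hlP g hg)
  have dSA : Disjoint S A := Finset.disjoint_right.2 fun a ha => (hA a ha).2.2
  have eS : L.C \ A = S := Finset.union_sdiff_cancel_right dSA
  have eR' : ∏ l ∈ L.C, l = R * ∏ a ∈ A, a := by rw [hR]; exact Finset.prod_union dSA
  have A0 : ∏ a ∈ A, a ≠ 0 := Finset.prod_ne_zero_iff.2 fun a ha => (hA a ha).1.ne_zero
  have R0 : R * ∏ a ∈ A, a ≠ 0 := mul_ne_zero (NeZero.ne R) A0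
  let y : Ob E := ⟨ζ, mem_Ob.2 (norm_root R0 hζ.pow_eq_one).le⟩
  have hy : IsPrimitiveRoot y (R * ∏ a ∈ A, a) :=
    IsPrimitiveRoot.of_map_of_injective (f := (Ob E).subtype) hζ Subtype.val_injective
  haveI : NeZero (R * ∏ a ∈ A, a) := ⟨R0⟩
  obtain ⟨k, -, hk⟩ := (hy.map_of_injective (f := V.Co.j) V.Co.inj).eq_pow_of_pow_eq_one
    (ξ := ze (R * ∏ a ∈ A, a) 1) (by
      have h1 : IsPrimitiveRoot (ze (R * ∏ a ∈ A, a) 1) (R * ∏ a ∈ A, a) := by
        simpa [ze] using Complex.isPrimitiveRoot_exp _ R0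
      exact h1.pow_eq_one)
  have two : ∀ B : Finset ℕ, 2 ≤ B.card → ∀ l : ℕ, ∃ p ∈ B, p ≠ l := fun B hB l =>
    Finset.exists_mem_ne hB l
  refine ⟨⟨D, L, ϖ, i, 1, ∏ l ∈ L.C, l, 1, y ^ k, omO ω⟩, h0,
    mkSu hϖ ok (intg_dt (h := hM.int)) (fun l hl hT => hunr l hl ?_ ?_) ⟨_, eR'⟩
      (two _ (h2.trans (Finset.card_le_card Finset.subset_union_right))) hi hW
      (by rw [one_mul, eR', map_pow, hk]),
    fun s2 => mkSu (D := dS D A h0) (L := dL L A) hϖ (okS_drop ok Finset.subset_union_right h0)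
      (intg_dt (h := hM.int)) (fun l hl hT => hunr l hl ?_ ?_) (dvd_of_eq (hR.trans (by rw [← eS]; rfl)))
      (two _ (s2.trans_eq (congrArg Finset.card eS.symm))) hi hW ?_,
    hϖ, rfl, rfl, rfl, rfl, rfl, rfl, rfl⟩
  · rintro rfl
    exact hT (Finset.mem_insert_of_mem (Finset.mem_insert_self _ _))
  · exact fun k => hT (Finset.mem_insert_of_mem (Finset.mem_insert_of_mem
      (Finset.mem_union_left _ k)))
  · rintro rfl
    exact hT (Finset.mem_sdiff.2 ⟨Finset.mem_insert_of_mem (Finset.mem_insert_self _ _),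
      fun k => (hA 2 k).2.1 rfl⟩)
  · exact fun k => hT (Finset.mem_sdiff.2 ⟨Finset.mem_insert_of_mem (Finset.mem_insert_of_mem
      (Finset.mem_union_left _ k)), Finset.disjoint_left.1 dSA k⟩)
  · change V.Co.j ((y ^ k) ^ ∏ a ∈ A, a) = ze (1 * ∏ l ∈ L.C \ A, l) 1
    rw [one_mul, eS, ← hR, map_pow, map_pow, hk]
    have a0 : ((∏ a ∈ A, a : ℕ) : ℂ) ≠ 0 := Nat.cast_ne_zero.2 A0
    have a1 : (R : ℂ) ≠ 0 := Nat.cast_ne_zero.2 (NeZero.ne R)
    simp only [ze]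
    rw [← Complex.exp_nat_mul]
    congr 1
    generalize (∏ a ∈ A, a) = m at a0
    push_cast
    field_simp

/-- the data of the Galois side -/
def gS {O F : Type} [CommRing O] [Field F] (D : Dat O F) : P022S.R.Dat O F :=
  ⟨D.red, 1, D.T, D.l0, D.surj, D.hl0⟩

theorem okG_of {O F : Type} [CommRing O] [IsLocalRing O] [Field F] [CharP F 2] {D : Dat O F}
    {L : Pl O} (h : L.OkS D) (hH : L.H = ⊤) (hr : ∀ g, (L.r g).map D.red = 1) :
    P022S.Loc.OkG L (gS D) := by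
  have e : ∀ g, mx (gS D).rb g = 1 := fun _ => rfl
  refine ⟨h.ker, ⟨fun g _ => ?_, fun g hg => absurd (hH ▸ Subgroup.mem_top g) hg, ?_,
    fun g _ => hH ▸ Subgroup.mem_top g⟩, fun g => by rw [e, Matrix.det_one], h.hT, h.dj, h.pr,
    h.hP, h.h2, h.cj, h.tm, fun l hl => (h.nW hl).elim, fun l _ g _ => ?_, hr, h.cont, h.odd,
    fun l hl => (h.nW hl).elim⟩
  · rw [e]
    exact ⟨rfl, rfl⟩
  · exact (Set.eq_univ_of_forall fun _ => rfl : {g : GQ | (gS D).rb g = 1} = Set.univ) ▸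
      isOpen_univ
  · rw [e, Matrix.trace_fin_two]
    exact CharTwo.add_self_eq_zero (1 : F)

end Vale.Agent.P022S.Top
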